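import Mathlib

/-!
# P095: the notions used in the statements
-/

open scoped ComplexOrder

namespace Vale.Agent.P095

/-- A tracial state. -/
def IsTracial {A : Type*} [CStarAlgebra A] (τ : A →ₗ[ℂ] ℂ) : Prop :=
  τ 1 = 1 ∧ (∀ a, 0 ≤ τ (star a * a)) ∧ ∀ a b, τ (a * b) = τ (b * a)

/-- `x` has squared 2-norm below `ε` in every tracial state. -/
def SmallTwoNorm {A : Type*} [CStarAlgebra A] (x : A) (ε : ℝ) : Prop :=
  ∀ τ : A →ₗ[ℂ] ℂ, IsTracial τ → (τ (star x * x)).re < ε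

/-- Uniform McDuffness: approximately central approximate matrix units of every size, all
estimates in the 2-norms of all tracial states. -/
def IsUniformlyMcDuff (A : Type*) [CStarAlgebra A] : Prop :=
  ∀ (C : Finset A) (n : ℕ), 0 < n → ∀ ε : ℝ, 0 < ε → ∃ e : Fin n → Fin n → A,
    (∀ i j, ‖e i j‖ ≤ 1) ∧
    (∀ i j k l, SmallTwoNorm (e i j * e k l - if j = k then e i l else 0) ε) ∧
    (∀ i j, SmallTwoNorm (star (e i j) - e j i) ε) ∧
    SmallTwoNorm (∑ i, e i i - 1) ε ∧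
    ∀ c ∈ C, ∀ i j, SmallTwoNorm (c * e i j - e i j * c) ε

open Classical in
/-- Amenability of a group, in the form of Følner's condition. -/
def IsAmenableGroup (G : Type*) [Group G] : Prop :=
  ∀ (K : Finset G) (ε : ℝ), 0 < ε → ∃ F : Finset G, F.Nonempty ∧
    ∀ k ∈ K, (((F.image (k * ·)) \ F).card + (F \ (F.image (k * ·))).card : ℝ) ≤ ε * F.card

/-- Equivariant uniform property Gamma: for every finite set of `A` and of `G` almost invariant
almost central positive partitions of unity into almost projections dividing every trace equally. -/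
def HasEquivariantUniformGamma {G A : Type*} [Group G] [CStarAlgebra A] (α : G → A ≃⋆ₐ[ℂ] A) :
    Prop :=
  ∀ (C : Finset A) (K : Finset G) (n : ℕ), 0 < n → ∀ ε : ℝ, 0 < ε → ∃ p : Fin n → A,
    (∀ i, ∃ x : A, p i = star x * x) ∧ ∑ i, p i = 1 ∧
    (∀ i, SmallTwoNorm (p i * p i - p i) ε) ∧
    (∀ c ∈ C, ∀ i, SmallTwoNorm (c * p i - p i * c) ε) ∧
    (∀ k ∈ K, ∀ i, SmallTwoNorm (α k (p i) - p i) ε) ∧
    ∀ c ∈ C, ∀ i, ∀ τ : A →ₗ[ℂ] ℂ, IsTracial τ → ‖τ (c * p i) - τ c / n‖ < ε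

end Vale.Agent.P095
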