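import Vale.Agent.P095.Sys
import Vale.Agent.P095.Defs

/-!
# P095: bounded sequences, limit traces and the transfer of estimates

`BSeq A` is the C⋆-algebra of bounded sequences.  A sequence of tracial states of `A` gives a
tracial state of `BSeq A` along a fixed free ultrafilter, and the set of these is invariant under
the action applied coordinatewise.
-/

open scoped ComplexOrder ENNReal
open Filter Topology

namespace Vale.Agent.P095

variable {G A : Type*} [Group G] [CStarAlgebra A] [Nontrivial A]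

/-- Bounded sequences in `A`. -/
def BSeq (A : Type*) [CStarAlgebra A] : Type _ := lp (fun _ : ℕ => A) ∞

noncomputable instance : CStarAlgebra (lp (fun _ : ℕ => A) ∞) where

noncomputable instance : CStarAlgebra (BSeq A) :=
  inferInstanceAs (CStarAlgebra (lp (fun _ : ℕ => A) ∞))

noncomputable instance : PartialOrder (BSeq A) := CStarAlgebra.spectralOrder (BSeq A)

instance : StarOrderedRing (BSeq A) := CStarAlgebra.spectralOrderedRing (BSeq A)

namespace BSeq

/-- The entries of a bounded sequence. -/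
def get (x : BSeq A) (i : ℕ) : A := (show lp (fun _ : ℕ => A) ∞ from x).1 i

/-- A bounded sequence as an element of `BSeq A`. -/
def mk (x : ℕ → A) (R : ℝ) (h : ∀ i, ‖x i‖ ≤ R) : BSeq A :=
  show lp (fun _ : ℕ => A) ∞ from ⟨x, memℓp_infty ⟨R, by rintro _ ⟨i, rfl⟩; exact h i⟩⟩

@[simp] theorem get_mk (x : ℕ → A) (R : ℝ) (h : ∀ i, ‖x i‖ ≤ R) (i : ℕ) :
    (mk x R h).get i = x i := rfl

/-- The constant sequence. -/
def const (a : A) : BSeq A := mk (fun _ => a) ‖a‖ fun _ => le_rfl

@[simp] theorem get_const (a : A) (i : ℕ) : (const a).get i = a := rfl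

@[ext] theorem ext' {x y : BSeq A} (h : ∀ i, x.get i = y.get i) : x = y := by
  apply lp.ext
  exact funext h

theorem norm_get_le (x : BSeq A) (i : ℕ) : ‖x.get i‖ ≤ ‖x‖ :=
  lp.norm_apply_le_norm (by simp) (show lp (fun _ : ℕ => A) ∞ from x) i

theorem norm_le {x : BSeq A} {R : ℝ} (hR : 0 ≤ R) (h : ∀ i, ‖x.get i‖ ≤ R) : ‖x‖ ≤ R :=
  lp.norm_le_of_forall_le hR h

@[simp] theorem get_zero (i : ℕ) : (0 : BSeq A).get i = 0 := rfl

@[simp] theorem get_one (i : ℕ) : (1 : BSeq A).get i = 1 := rfl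

@[simp] theorem get_mul (x y : BSeq A) (i : ℕ) : (x * y).get i = x.get i * y.get i := rfl

@[simp] theorem get_add (x y : BSeq A) (i : ℕ) : (x + y).get i = x.get i + y.get i := rfl

@[simp] theorem get_sub (x y : BSeq A) (i : ℕ) : (x - y).get i = x.get i - y.get i := rfl

@[simp] theorem get_smul (c : ℂ) (x : BSeq A) (i : ℕ) : (c • x).get i = c • x.get i := rfl

@[simp] theorem get_star (x : BSeq A) (i : ℕ) : (star x).get i = star (x.get i) := rfl

@[simp] theorem get_sum {ι : Type*} (s : Finset ι) (x : ι → BSeq A) (i : ℕ) :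
    (∑ j ∈ s, x j).get i = ∑ j ∈ s, (x j).get i := by
  classical
  induction s using Finset.induction_on with
  | empty => simp
  | insert j t hj ih => simp [Finset.sum_insert hj, ih]

end BSeq

theorem norm_trace_le {τ : A →ₗ[ℂ] ℂ} (h : IsTracial τ) (a : A) : ‖τ a‖ ≤ ‖a‖ := by
  let _ : PartialOrder A := CStarAlgebra.spectralOrder A
  let _ : StarOrderedRing A := CStarAlgebra.spectralOrderedRing A
  let ω : Tr A := ⟨PositiveLinearMap.mk₀ τ fun x hx => by
    obtain ⟨s, rfl⟩ := CStarAlgebra.nonneg_iff_eq_star_mul_self.1 hx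
    exact h.2.1 s, h.1, h.2.2⟩
  exact (ω.norm_apply_le a).trans (ω.nrm_le_norm a)

/-- The limit of `τ i (x.get i)` along the fixed free ultrafilter. -/
noncomputable def limTrace (τ : ℕ → A →ₗ[ℂ] ℂ) (x : BSeq A) : ℂ :=
  limUnder (hyperfilter ℕ : Filter ℕ) fun i => τ i (x.get i)

theorem tendsto_limTrace {τ : ℕ → A →ₗ[ℂ] ℂ} (h : ∀ i, IsTracial (τ i)) (x : BSeq A) :
    Tendsto (fun i => τ i (x.get i)) (hyperfilter ℕ : Filter ℕ) (𝓝 (limTrace τ x)) := by
  obtain ⟨z, -, hz⟩ := (isCompact_closedBall (0 : ℂ) ‖x‖).ultrafilter_le_nhds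
    ((hyperfilter ℕ).map fun i => τ i (x.get i))
    (le_principal_iff.2 (mem_map.2 (univ_mem' fun i => by
      show τ i (x.get i) ∈ Metric.closedBall 0 ‖x‖
      rw [mem_closedBall_zero_iff]
      exact (norm_trace_le (h i) _).trans (BSeq.norm_get_le x i))))
  exact tendsto_nhds_limUnder ⟨z, hz⟩

/-- The trace of `BSeq A` given by a sequence of tracial states. -/
noncomputable def limTr {τ : ℕ → A →ₗ[ℂ] ℂ} (h : ∀ i, IsTracial (τ i)) : Tr (BSeq A) where
  f := PositiveLinearMap.mk₀
    { toFun := limTrace τ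
      map_add' := fun x y => tendsto_nhds_unique (tendsto_limTrace h (x + y))
        (((tendsto_limTrace h x).add (tendsto_limTrace h y)).congr fun i => by simp)
      map_smul' := fun c x => tendsto_nhds_unique (tendsto_limTrace h (c • x))
        (((tendsto_limTrace h x).const_mul c).congr fun i => by simp) }
    fun x hx => by
      obtain ⟨s, rfl⟩ := CStarAlgebra.nonneg_iff_eq_star_mul_self.1 hx
      refine ge_of_tendsto (tendsto_limTrace h (star s * s)) (Eventually.of_forall fun i => ?_)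
      rw [BSeq.get_mul, BSeq.get_star]
      exact (h i).2.1 _
  map_one' := tendsto_nhds_unique (tendsto_limTrace h 1)
    (tendsto_const_nhds.congr fun i => by rw [BSeq.get_one]; exact ((h i).1).symm)
  tracial x y := tendsto_nhds_unique (tendsto_limTrace h (x * y))
    ((tendsto_limTrace h (y * x)).congr fun i => by
      rw [BSeq.get_mul, BSeq.get_mul]; exact (h i).2.2 _ _)

theorem tendsto_limTr {τ : ℕ → A →ₗ[ℂ] ℂ} (h : ∀ i, IsTracial (τ i)) (x : BSeq A) :
    Tendsto (fun i => τ i (x.get i)) (hyperfilter ℕ : Filter ℕ) (𝓝 ((limTr h).f x)) :=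
  tendsto_limTrace h x

/-- The traces of `BSeq A` coming from sequences of tracial states. -/
def limTraces (A : Type*) [CStarAlgebra A] [Nontrivial A] : Set (Tr (BSeq A)) :=
  {ω | ∃ (τ : ℕ → A →ₗ[ℂ] ℂ) (h : ∀ i, IsTracial (τ i)), ω = limTr h}

/-- A star automorphism applied coordinatewise. -/
noncomputable def mapSeq (σ : A ≃⋆ₐ[ℂ] A) : BSeq A ≃⋆ₐ[ℂ] BSeq A where
  toFun x := BSeq.mk (fun i => σ (x.get i)) ‖x‖ fun i =>
    (StarAlgEquiv.norm_map σ _).trans_le (BSeq.norm_get_le x i)
  invFun x := BSeq.mk (fun i => σ.symm (x.get i)) ‖x‖ fun i =>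
    (StarAlgEquiv.norm_map σ.symm _).trans_le (BSeq.norm_get_le x i)
  left_inv x := by ext i; simp
  right_inv x := by ext i; simp
  map_mul' x y := by ext i; simp
  map_add' x y := by ext i; simp
  map_star' x := by ext i; simp [map_star]
  map_smul' c x := by ext i; simp

@[simp] theorem mapSeq_apply (σ : A ≃⋆ₐ[ℂ] A) (x : BSeq A) (i : ℕ) : (mapSeq σ x).get i = σ (x.get i) :=
  rfl

theorem rep_eq_zero {τ : ℕ → A →ₗ[ℂ] ℂ} (h : ∀ i, IsTracial (τ i)) (z : BSeq A)
    (hz : ∀ i, SmallTwoNorm (z.get i) (1 / (i + 1))) : (limTr h).rep z = 0 := by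
  rw [← map_zero (limTr h).rep, Tr.rep_eq_iff, sub_zero, ← sq_eq_zero_iff, Tr.nrm_sq_re]
  refine tendsto_nhds_unique ((Complex.continuous_re.tendsto _).comp (tendsto_limTr h _)) ?_
  refine squeeze_zero (fun i => ?_) (fun i => ?_)
    (tendsto_one_div_add_atTop_nhds_zero_nat.mono_left Nat.hyperfilter_le_atTop)
  · show 0 ≤ (τ i ((star z * z).get i)).re
    rw [BSeq.get_mul, BSeq.get_star]
    exact (RCLike.nonneg_iff.1 ((h i).2.1 _)).1
  · show (τ i ((star z * z).get i)).re ≤ _
    rw [BSeq.get_mul, BSeq.get_star]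
    exact (hz i _ (h i)).le

/-- The setting of `Sys` given by bounded sequences. -/
noncomputable def seqSys (hA : IsUniformlyMcDuff A) (α : G → A ≃⋆ₐ[ℂ] A)
    (hα : ∀ g h a, α (g * h) a = α g (α h a)) : Sys G (BSeq A) where
  Ω := limTraces A
  α g := mapSeq (α g)
  α_mul g h x := by ext i; simp [hα]
  invariant := by
    rintro ω ⟨τ, h, rfl⟩ g
    have h' : ∀ i, IsTracial
        ({ toFun := fun a => τ i (α g a)
           map_add' := fun a b => by simp
           map_smul' := fun c a => by simp } : A →ₗ[ℂ] ℂ) := fun i =>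
      ⟨by show τ i (α g 1) = 1
          rw [map_one]; exact (h i).1,
        fun a => by
          show 0 ≤ τ i (α g (star a * a))
          rw [map_mul (α g), map_star]; exact (h i).2.1 _,
        fun a b => by
          show τ i (α g (a * b)) = τ i (α g (b * a))
          rw [map_mul (α g), map_mul (α g)]; exact (h i).2.2 _ _⟩
    exact ⟨limTr h', ⟨_, h', rfl⟩, fun x => rfl⟩
  units C n := by
    classical
    rcases Nat.eq_zero_or_pos n with rfl | hn
    · refine ⟨fun _ _ => 0, fun i => i.elim0, fun ω _ => ⟨fun i => i.elim0, fun i => i.elim0,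
        fun h => absurd h (lt_irrefl 0), fun c _ i => i.elim0⟩⟩
    choose e hen he1 he2 he3 he4 using fun i : ℕ =>
      hA (C.image fun c => c.get i) n hn (1 / ((i : ℝ) + 1)) (by positivity)
    refine ⟨fun a b => BSeq.mk (fun i => e i a b) 1 fun i => hen i a b, fun a b => ?_, ?_⟩
    · exact BSeq.norm_le zero_le_one fun i => hen i a b
    rintro ω ⟨τ, h, rfl⟩
    refine ⟨fun a b c d => ?_, fun a b => ?_, fun _ => ?_, fun c hc a b => ?_⟩
    · rw [show (if b = c then (limTr h).rep (BSeq.mk (fun i => e i a d) 1 fun i => hen i a d)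
          else 0) = (limTr h).rep (if b = c then BSeq.mk (fun i => e i a d) 1 fun i => hen i a d
          else 0) by split_ifs <;> simp, ← sub_eq_zero, ← map_sub]
      refine rep_eq_zero h _ fun i => ?_
      have := he1 i a b c d
      split_ifs at this ⊢ <;> simpa using this
    · rw [← sub_eq_zero, ← map_sub]
      exact rep_eq_zero h _ fun i => by simpa using he2 i a b
    · rw [← map_one (limTr h).rep, ← sub_eq_zero, ← map_sub]
      refine rep_eq_zero h _ fun i => ?_
      simpa [BSeq.get_sum] using he3 i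
    · rw [Commute, SemiconjBy, ← map_mul, ← map_mul, ← sub_eq_zero, ← map_sub]
      exact rep_eq_zero h _ fun i => by
        simpa using he4 i _ (Finset.mem_image_of_mem _ hc) a b

/-- If finitely many quantities of a sequence are small in every limit trace, then at some index
they are small in every tracial state. -/
theorem exists_index {ι : Type*} [Fintype ι] (q : ι → ℕ → (A →ₗ[ℂ] ℂ) → ℝ)
    (lim : ι → Tr (BSeq A) → ℝ)
    (hlim : ∀ (j : ι) (τ : ℕ → A →ₗ[ℂ] ℂ) (h : ∀ i, IsTracial (τ i)),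
      Tendsto (fun i => q j i (τ i)) (hyperfilter ℕ : Filter ℕ) (𝓝 (lim j (limTr h))))
    (ε : ℝ) (hsmall : ∀ ω ∈ limTraces A, ∀ j, lim j ω < ε) :
    ∃ i, ∀ τ, IsTracial τ → ∀ j, q j i τ < ε := by
  by_contra hcon
  push_neg at hcon
  choose τ hτ j hj using hcon
  obtain ⟨j0, hj0⟩ := (Ultrafilter.eventually_exists_iff
    (f := hyperfilter ℕ) (P := fun j0 i => ε ≤ q j0 i (τ i))).1
    (Eventually.of_forall fun i => ⟨j i, hj i⟩)
  exact absurd (hsmall _ ⟨τ, hτ, rfl⟩ j0) (not_lt.2 (ge_of_tendsto (hlim j0 τ hτ) hj0))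

end Vale.Agent.P095
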