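import Vale.Agent.P095.Basic

/-!
# P095: `√(Y + η) - √η` and related functions of a positive element
-/

open scoped ComplexOrder

namespace Vale.Agent.P095

variable {B : Type*} [CStarAlgebra B] [PartialOrder B] [StarOrderedRing B]

/-- `√(Y + η) - √η`. -/
noncomputable def rootShift (η : ℝ) (Y : B) : B :=
  cfc (fun y : ℝ => Real.sqrt (max y 0 + η) - Real.sqrt η) Y

/-- `(√(Y + η) + √η)⁻¹`. -/
noncomputable def rootInv (η : ℝ) (Y : B) : B :=
  cfc (fun y : ℝ => (Real.sqrt (max y 0 + η) + Real.sqrt η)⁻¹) Y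

/-- `(Y + η)⁻¹`. -/
noncomputable def resolv (η : ℝ) (Y : B) : B := cfc (fun y : ℝ => (max y 0 + η)⁻¹) Y

variable {η : ℝ} {Y : B}

theorem continuous_rootInv (hη : 0 < η) :
    Continuous fun y : ℝ => (Real.sqrt (max y 0 + η) + Real.sqrt η)⁻¹ :=
  Continuous.inv₀ (by fun_prop) fun y => by positivity

theorem continuous_resolv (hη : 0 < η) : Continuous fun y : ℝ => (max y 0 + η)⁻¹ :=
  Continuous.inv₀ (by fun_prop) fun y => by positivity

theorem rootShift_nonneg : 0 ≤ rootShift η Y := cfc_nonneg fun _ _ => sub_nonneg.2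
  (Real.sqrt_le_sqrt (le_add_of_nonneg_left (le_max_right _ _)))

theorem rootInv_nonneg : 0 ≤ rootInv η Y := cfc_nonneg fun _ _ => by positivity

theorem resolv_nonneg (hη : 0 < η) : 0 ≤ resolv η Y := cfc_nonneg fun _ _ => by positivity

theorem norm_rootInv (hη : 0 < η) : ‖rootInv η Y‖ ≤ (2 * Real.sqrt η)⁻¹ :=
  norm_cfc_le (by positivity) fun y _ => by
    rw [Real.norm_of_nonneg (by positivity)]
    refine inv_anti₀ (by positivity) ?_
    have : Real.sqrt η ≤ Real.sqrt (max y 0 + η) :=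
      Real.sqrt_le_sqrt (le_add_of_nonneg_left (le_max_right _ _))
    linarith

theorem rootShift_eq (hη : 0 < η) (hY : 0 ≤ Y) : rootShift η Y = Y * rootInv η Y := by
  rw [rootShift, rootInv]; nth_rw 2 [← cfc_id' ℝ Y]
  rw [← cfc_mul _ _ Y (by fun_prop) (continuous_rootInv hη).continuousOn]
  refine cfc_congr fun y hy => ?_
  have hy0 := spectrum_nonneg_of_nonneg hY hy
  simp only [max_eq_left hy0]
  rw [eq_mul_inv_iff_mul_eq₀ (by positivity)]
  nlinarith [Real.mul_self_sqrt (show 0 ≤ y + η by linarith), Real.mul_self_sqrt hη.le]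

theorem rootShift_sq (hη : 0 < η) (hY : 0 ≤ Y) :
    rootShift η Y * rootShift η Y + (2 * Real.sqrt η) • rootShift η Y = Y := by
  rw [rootShift, ← cfc_mul _ _ Y (by fun_prop) (by fun_prop), ← cfc_smul _ _ Y (by fun_prop),
    ← cfc_add Y _ _ (by fun_prop) (by fun_prop)]
  nth_rw 2 [← cfc_id' ℝ Y]
  refine cfc_congr fun y hy => ?_
  have hy0 := spectrum_nonneg_of_nonneg hY hy
  simp only [max_eq_left hy0, smul_eq_mul]
  nlinarith [Real.mul_self_sqrt (show 0 ≤ y + η by linarith), Real.mul_self_sqrt hη.le]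

theorem resolv_mul_mul (hη : 0 < η) (hY : 0 ≤ Y) :
    resolv η Y * Y * resolv η Y ≤ resolv η Y := by
  have cR := continuous_resolv hη
  rw [resolv]; nth_rw 2 [← cfc_id' ℝ Y]
  rw [← cfc_mul _ _ Y cR.continuousOn (by fun_prop),
    ← cfc_mul (fun y : ℝ => (max y 0 + η)⁻¹ * y) _ Y (cR.mul continuous_id).continuousOn
      cR.continuousOn]
  refine cfc_mono (fun y hy => ?_) ((cR.mul continuous_id).mul cR).continuousOn cR.continuousOn
  have hy0 := spectrum_nonneg_of_nonneg hY hy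
  simp only [max_eq_left hy0]
  have hp : 0 < y + η := by linarith
  have : (y + η)⁻¹ * y ≤ 1 := by rw [inv_mul_le_iff₀ hp]; linarith
  exact mul_le_of_le_one_left (by positivity) this

theorem rootShift_le (hη : 0 < η) (hY : 0 ≤ Y) {σ : ℝ} (hσ : 0 < σ) :
    (2 * Real.sqrt η) • rootShift η Y ≤ σ • Y + (η / σ) • (Y * resolv η Y) := by
  have cR := continuous_resolv hη
  have c1 : Continuous fun y : ℝ => y * (max y 0 + η)⁻¹ := continuous_id.mul cR
  have e1 : Y * resolv η Y = cfc (fun y : ℝ => y * (max y 0 + η)⁻¹) Y := by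
    rw [resolv]; nth_rw 1 [← cfc_id' ℝ Y]
    rw [← cfc_mul _ _ Y (by fun_prop) cR.continuousOn]
  rw [e1, rootShift]
  nth_rw 2 [← cfc_id' ℝ Y]
  rw [← cfc_smul _ _ Y (by fun_prop), ← cfc_smul _ _ Y (by fun_prop),
    ← cfc_smul _ _ Y c1.continuousOn,
    ← cfc_add Y (fun y : ℝ => σ • y) (fun y : ℝ => (η / σ) • (y * (max y 0 + η)⁻¹)) (by fun_prop)
      (c1.fun_const_smul _).continuousOn]
  refine cfc_mono (fun y hy => ?_) (by fun_prop)
    ((continuous_id'.fun_const_smul σ).fun_add (c1.fun_const_smul (η / σ))).continuousOn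
  have hy0 := spectrum_nonneg_of_nonneg hY hy
  simp only [max_eq_left hy0, smul_eq_mul]
  set s := Real.sqrt η with hs
  set r := Real.sqrt (y + η) with hr
  have hs0 : 0 < s := Real.sqrt_pos.2 hη
  have hs2 : s * s = η := Real.mul_self_sqrt hη.le
  have hr2 : r * r = y + η := Real.mul_self_sqrt (by linarith)
  have hrp : 0 < r := Real.sqrt_pos.2 (by linarith)
  have h1 : (r - s) * r ≤ y := by
    nlinarith [mul_le_mul_of_nonneg_left
      (show s ≤ r from Real.sqrt_le_sqrt (by linarith)) hs0.le]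
  rw [← hr2, ← hs2]
  field_simp
  nlinarith [mul_nonneg hy0 (sq_nonneg (σ * r - s)),
    mul_le_mul_of_nonneg_left h1 (by positivity : 0 ≤ 2 * s * σ * r)]

theorem commute_rep_cfc (ω : Tr B) (hY : IsSelfAdjoint Y) (c : B) (f : ℝ → ℝ) (hf : Continuous f)
    (h : Commute (ω.rep c) (ω.rep Y)) : Commute (ω.rep c) (ω.rep (cfc f Y)) := by
  have hcont : Continuous (ω.rep.restrictScalars ℝ) := map_continuous ω.rep
  have e : ω.rep (cfc f Y) = cfc f (ω.rep Y) :=
    StarAlgHomClass.map_cfc (ω.rep.restrictScalars ℝ) f Y hf.continuousOn hcont hY (hY.map _)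
  rw [e]
  exact (h.symm.cfc_real f).symm

end Vale.Agent.P095
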