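import Vale.Agent.P095.Sys

/-!
# P095: complex functions of self-adjoint elements
-/

open scoped ComplexOrder
open Complex

namespace Vale.Agent.P095

variable {B : Type*} [CStarAlgebra B]

/-- A complex function on the line applied to a self-adjoint element. -/
noncomputable def fc (g : ℝ → ℂ) (X : B) : B := cfc (fun z : ℂ => g z.re) X

/-- `x ↦ exp (i t x)`. -/
noncomputable def wave (t : ℝ) : ℝ → ℂ := fun x => Complex.exp (I * t * x)

theorem continuous_wave (t : ℝ) : Continuous (wave t) := by unfold wave; fun_prop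

theorem norm_wave (t x : ℝ) : ‖wave t x‖ = 1 := by
  rw [wave, Complex.norm_exp]; simp

variable {X : B}

theorem fc_mul {g h : ℝ → ℂ} (hg : Continuous g) (hh : Continuous h) :
    fc (fun x => g x * h x) X = fc g X * fc h X :=
  cfc_mul (fun z : ℂ => g z.re) (fun z : ℂ => h z.re) X
    (hg.comp Complex.continuous_re).continuousOn (hh.comp Complex.continuous_re).continuousOn

theorem fc_add {g h : ℝ → ℂ} (hg : Continuous g) (hh : Continuous h) :
    fc (fun x => g x + h x) X = fc g X + fc h X :=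
  cfc_add X (fun z : ℂ => g z.re) (fun z : ℂ => h z.re)
    (hg.comp Complex.continuous_re).continuousOn (hh.comp Complex.continuous_re).continuousOn

theorem fc_sub {g h : ℝ → ℂ} (hg : Continuous g) (hh : Continuous h) :
    fc (fun x => g x - h x) X = fc g X - fc h X :=
  cfc_sub (fun z : ℂ => g z.re) (fun z : ℂ => h z.re) X
    (hg.comp Complex.continuous_re).continuousOn (hh.comp Complex.continuous_re).continuousOn

theorem fc_const_mul (c : ℂ) {g : ℝ → ℂ} (hg : Continuous g) :
    fc (fun x => c * g x) X = c • fc g X :=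
  (cfc_const_mul c (fun z : ℂ => g z.re) X (hg.comp Complex.continuous_re).continuousOn)

theorem fc_sum {ι : Type*} (s : Finset ι) (g : ι → ℝ → ℂ) (hg : ∀ i ∈ s, Continuous (g i)) :
    fc (fun x => ∑ i ∈ s, g i x) X = ∑ i ∈ s, fc (g i) X := by
  unfold fc
  rw [← cfc_sum (fun i => fun z : ℂ => g i z.re) X s
    fun i hi => ((hg i hi).comp Complex.continuous_re).continuousOn]
  exact cfc_congr fun z _ => by simp [Finset.sum_apply]

theorem fc_const (hX : IsSelfAdjoint X) (c : ℂ) : fc (fun _ => c) X = algebraMap ℂ B c :=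
  cfc_const c X hX.isStarNormal

theorem fc_id (hX : IsSelfAdjoint X) : fc (fun x => (x : ℂ)) X = X := by
  conv_rhs => rw [← cfc_id' ℂ X hX.isStarNormal]
  refine cfc_congr fun z hz => ?_
  rw [hX.mem_spectrum_eq_re hz, Complex.ofReal_re]

theorem fc_real (hX : IsSelfAdjoint X) (f : ℝ → ℝ) :
    fc (fun x => (f x : ℂ)) X = cfc f X :=
  (cfc_real_eq_complex f hX).symm

theorem star_fc (g : ℝ → ℂ) : star (fc g X) = fc (fun x => star (g x)) X :=
  (cfc_star (fun z : ℂ => g z.re) X).symm

theorem norm_fc_le (hX : IsSelfAdjoint X) {g : ℝ → ℂ} {c : ℝ} (hc : 0 ≤ c)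
    (h : ∀ x : ℝ, |x| ≤ ‖X‖ → ‖g x‖ ≤ c) : ‖fc g X‖ ≤ c :=
  norm_cfc_le hc fun z hz => h _ (by
    have := norm_apply_le_norm_cfc (fun z : ℂ => z) X hz (by fun_prop) hX.isStarNormal
    rw [cfc_id' ℂ X hX.isStarNormal] at this
    exact (Complex.abs_re_le_norm z).trans this)

theorem fc_map {B' : Type*} [CStarAlgebra B'] {F : Type*} [FunLike F B B'] [AlgHomClass F ℂ B B']
    [StarHomClass F B B'] (φ : F) (hφ : Continuous φ) {g : ℝ → ℂ} (hg : Continuous g)
    (hX : IsSelfAdjoint X) : φ (fc g X) = fc g (φ X) :=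
  StarAlgHomClass.map_cfc φ (fun z : ℂ => g z.re) X (hg.comp Complex.continuous_re).continuousOn hφ
    hX.isStarNormal (hX.map φ).isStarNormal

theorem wave_add (s t : ℝ) : wave (s + t) = fun x => wave s x * wave t x := by
  funext x; rw [wave, wave, wave, ← Complex.exp_add]; push_cast; ring_nf

theorem fc_wave_pow (hX : IsSelfAdjoint X) (s : ℝ) :
    ∀ M : ℕ, fc (wave s) X ^ M = fc (wave ((M : ℝ) * s)) X := by
  intro M
  induction M with
  | zero =>
    have : wave ((0 : ℕ) * s : ℝ) = fun _ => (1 : ℂ) := by funext x; simp [wave]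
    rw [this, fc_const hX, pow_zero, map_one]
  | succ k ih =>
    rw [pow_succ, ih, ← fc_mul (continuous_wave _) (continuous_wave _), ← wave_add]
    congr 2; push_cast; ring

theorem norm_fc_wave (hX : IsSelfAdjoint X) (t : ℝ) : ‖fc (wave t) X‖ ≤ 1 :=
  norm_fc_le hX zero_le_one fun x _ => (norm_wave t x).le

theorem fc_wave_eq_exp (hX : IsSelfAdjoint X) (t : ℝ) :
    fc (wave t) X = NormedSpace.exp ((I * t : ℂ) • X) := by
  have hn := hX.isStarNormal
  rw [← CFC.complex_exp_eq_normedSpace_exp (hn.smul _), ← cfc_comp_smul (I * t : ℂ) Complex.exp X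
    (by fun_prop) hn]
  refine cfc_congr fun z hz => ?_
  rw [hX.mem_spectrum_eq_re hz]
  simp [wave]

theorem fc_wave_add {Y : B} (hX : IsSelfAdjoint X) (hY : IsSelfAdjoint Y) (h : Commute X Y)
    (t : ℝ) : fc (wave t) (X + Y) = fc (wave t) X * fc (wave t) Y := by
  let +nondep : NormedAlgebra ℚ B := .restrictScalars ℚ ℂ B
  rw [fc_wave_eq_exp (hX.add hY), fc_wave_eq_exp hX, fc_wave_eq_exp hY, smul_add,
    NormedSpace.exp_add_of_commute ((h.smul_left _).smul_right _)]

theorem fc_wave_smul (hX : IsSelfAdjoint X) (t θ : ℝ) :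
    fc (wave t) ((θ : ℂ) • X) = fc (wave (t * θ)) X := by
  rw [fc_wave_eq_exp hX, fc_wave_eq_exp (IsSelfAdjoint.smul (Complex.conj_ofReal θ) hX), smul_smul]
  push_cast
  rw [mul_assoc]

end Vale.Agent.P095
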