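import Vale.Agent.P095.Frame
import Vale.Agent.P095.Shift

/-!
# P095: the Følner average of a small central projection
-/

open scoped ComplexOrder

namespace Vale.Agent.P095

variable {G B : Type*} [Group G] [CStarAlgebra B] [PartialOrder B] [StarOrderedRing B]
variable {S : Sys G B} {C : Finset B} {F : Finset G} {n : ℕ}

namespace Frame

variable (P : Frame S C F n)

/-- The average `|F|⁻¹ ∑_{g ∈ F} eg g`. -/
noncomputable def avg : B := (F.card : ℝ)⁻¹ • ∑ g ∈ F, P.eg g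

theorem eg_star (g : G) : star (P.eg g) = P.eg g := (P.eg_nonneg g).isSelfAdjoint.star_eq

theorem nrm_eg (g : G) {ω : Tr B} (hω : ω ∈ S.Ω) : ω.nrm (P.eg g) ^ 2 = (n : ℝ)⁻¹ := by
  rw [ω.nrm_sq_re, P.eg_star, (P.eg_idem g).apply hω, P.eg_trace g ω hω, Complex.ofReal_re]

theorem avg_nonneg : 0 ≤ P.avg :=
  smul_nonneg (by positivity) (Finset.sum_nonneg fun g _ => P.eg_nonneg g)

theorem card_pos (hF : F.Nonempty) : (0 : ℝ) < F.card := Nat.cast_pos.2 hF.card_pos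

theorem norm_avg : ‖P.avg‖ ≤ 1 := by
  rw [avg, norm_smul, Real.norm_of_nonneg (by positivity : (0 : ℝ) ≤ (F.card : ℝ)⁻¹)]
  calc (F.card : ℝ)⁻¹ * ‖∑ g ∈ F, P.eg g‖ ≤ (F.card : ℝ)⁻¹ * F.card := by
        refine mul_le_mul_of_nonneg_left ?_ (by positivity)
        exact (norm_sum_le _ _).trans ((Finset.sum_le_sum fun g _ => P.eg_norm g).trans (by simp))
    _ ≤ 1 := inv_mul_le_one

theorem eg_le (hF : F.Nonempty) {g : G} (hg : g ∈ F) : P.eg g ≤ (F.card : ℝ) • P.avg := by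
  rw [avg, smul_smul, mul_inv_cancel₀ (card_pos hF).ne', one_smul]
  exact Finset.single_le_sum (fun h _ => P.eg_nonneg h) hg

theorem avg_comm {c : B} (hc : c ∈ C) {ω : Tr B} (hω : ω ∈ S.Ω) :
    Commute (ω.rep c) (ω.rep P.avg) := by
  rw [avg, ← Complex.coe_smul, map_smul, map_sum]
  exact (Commute.sum_right _ _ _ fun g hg => P.eg_comm g hg c hc ω hω).smul_right _

theorem apply_avg_mul (ω : Tr B) (x : B) :
    ω.f (P.avg * x) = ((F.card : ℝ)⁻¹ : ℝ) * ∑ g ∈ F, ω.f (P.eg g * x) := by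
  rw [avg, smul_mul_assoc, ω.apply_rsmul, Finset.sum_mul, map_sum]

theorem avg_weight (hF : F.Nonempty) {c : B} (hc : c ∈ C) {ω : Tr B} (hω : ω ∈ S.Ω) :
    ω.f (c * P.avg) = ((n : ℝ)⁻¹ : ℝ) * ω.f c := by
  rw [ω.tracial, P.apply_avg_mul,
    Finset.sum_congr rfl fun g hg => by rw [ω.tracial, P.eg_weight g hg c hc ω hω]]
  rw [Finset.sum_const, nsmul_eq_mul, ← mul_assoc, Complex.ofReal_inv, Complex.ofReal_natCast,
    Complex.ofReal_inv, Complex.ofReal_natCast,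
    inv_mul_cancel₀ (Nat.cast_ne_zero.2 hF.card_pos.ne'), one_mul]

theorem avg_trace (hF : F.Nonempty) {ω : Tr B} (hω : ω ∈ S.Ω) :
    ω.f P.avg = ((n : ℝ)⁻¹ : ℝ) := by
  rw [avg, ω.apply_rsmul, map_sum, Finset.sum_congr rfl fun g _ => P.eg_trace g ω hω,
    Finset.sum_const, nsmul_eq_mul, ← mul_assoc, Complex.ofReal_inv, Complex.ofReal_natCast,
    inv_mul_cancel₀ (Nat.cast_ne_zero.2 hF.card_pos.ne'), one_mul]

/-- The resolvent of the average is small on each of the projections. -/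
theorem eg_resolv (hF : F.Nonempty) {η : ℝ} (hη : 0 < η) {g : G} (hg : g ∈ F) {ω : Tr B}
    (hω : ω ∈ S.Ω) :
    (ω.f (P.eg g * resolv η P.avg)).re ≤ F.card * (n : ℝ)⁻¹ := by
  set N : ℝ := (F.card : ℝ) with hN
  have hN0 : 0 < N := card_pos hF
  set R := resolv η P.avg with hR
  have hR0 : 0 ≤ R := resolv_nonneg hη
  set X := P.eg g * R * P.eg g with hX'
  have hX0 : 0 ≤ X := by
    have := star_left_conjugate_nonneg hR0 (P.eg g); rwa [P.eg_star] at this
  have hi := P.eg_idem g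
  have e1 : ω.f (P.eg g * R) = ω.f X := by
    rw [hX', ω.tracial (P.eg g * R) (P.eg g), ← mul_assoc]
    exact (Sys.Eqv.mul hi.symm (Sys.Eqv.refl R)).apply hω
  have e2 : ω.f X = ω.f (star (P.eg g) * X) := by
    rw [P.eg_star, hX', ← mul_assoc, ← mul_assoc]
    exact ((hi.symm.mul (Sys.Eqv.refl R)).mul (Sys.Eqv.refl (P.eg g))).apply hω
  have e3 : ω.nrm X ^ 2 ≤ N * (ω.f X).re := by
    rw [ω.nrm_sq_self hX0.isSelfAdjoint]
    have e4 : S.Eqv (X * X) (P.eg g * (R * P.eg g * R) * P.eg g) := by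
      have h := ((Sys.Eqv.refl (S := S) (P.eg g * R)).mul hi).mul
        (Sys.Eqv.refl (R * P.eg g))
      simpa [hX', mul_assoc] using h
    have e5 : R * P.eg g * R ≤ N • R := by
      have h := star_left_conjugate_le_conjugate (P.eg_le hF hg) R
      rw [hR0.isSelfAdjoint.star_eq, mul_smul_comm, smul_mul_assoc] at h
      exact h.trans (smul_le_smul_of_nonneg_left (resolv_mul_mul hη P.avg_nonneg) hN0.le)
    rw [e4.apply hω]
    have h := ω.re_mono (star_left_conjugate_le_conjugate e5 (P.eg g))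
    rw [P.eg_star, mul_smul_comm, smul_mul_assoc, ω.apply_rsmul, Complex.re_ofReal_mul] at h
    exact h
  rw [e1]
  have h6 : (ω.f X).re ≤ ω.nrm (P.eg g) * ω.nrm X := by
    rw [e2]; exact (Complex.re_le_norm _).trans (ω.norm_apply_star_mul_le _ _)
  have h7 := P.nrm_eg g hω
  have h8 : (ω.f X).re * (ω.f X).re ≤ (ω.f X).re * (N * (n : ℝ)⁻¹) := by
    have := mul_le_mul h6 h6 (ω.nonneg hX0) ((ω.nonneg hX0).trans h6)
    nlinarith [mul_le_mul_of_nonneg_left e3 (sq_nonneg (ω.nrm (P.eg g)))]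
  rcases (ω.nonneg hX0).eq_or_lt with h | h
  · rw [← h]; positivity
  · exact le_of_mul_le_mul_left h8 h

theorem avg_resolv (hF : F.Nonempty) {η : ℝ} (hη : 0 < η) {ω : Tr B} (hω : ω ∈ S.Ω) :
    (ω.f (P.avg * resolv η P.avg)).re ≤ F.card * (n : ℝ)⁻¹ := by
  rw [P.apply_avg_mul, Complex.re_ofReal_mul, Complex.re_sum]
  calc (F.card : ℝ)⁻¹ * ∑ g ∈ F, (ω.f (P.eg g * resolv η P.avg)).re
      ≤ (F.card : ℝ)⁻¹ * ∑ _g ∈ F, (F.card : ℝ) * (n : ℝ)⁻¹ :=
        mul_le_mul_of_nonneg_left (Finset.sum_le_sum fun g hg => P.eg_resolv hF hη hg hω)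
          (by positivity)
    _ = _ := by rw [Finset.sum_const, nsmul_eq_mul, inv_mul_cancel_left₀ (card_pos hF).ne']

theorem root_trace (hF : F.Nonempty) {η : ℝ} (hη : 0 < η) {σ : ℝ} (hσ : 0 < σ) {ω : Tr B}
    (hω : ω ∈ S.Ω) :
    2 * Real.sqrt η * (ω.f (rootShift η P.avg)).re ≤
      (n : ℝ)⁻¹ * (σ + η / σ * F.card) := by
  have h := ω.re_mono (rootShift_le hη P.avg_nonneg hσ)
  rw [ω.apply_rsmul, map_add, ω.apply_rsmul, ω.apply_rsmul, Complex.add_re,
    Complex.re_ofReal_mul, Complex.re_ofReal_mul, Complex.re_ofReal_mul, P.avg_trace hF hω,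
    Complex.ofReal_re] at h
  have := mul_le_mul_of_nonneg_left (P.avg_resolv hF hη hω) (by positivity : 0 ≤ η / σ)
  nlinarith

end Frame

end Vale.Agent.P095
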