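import Mathlib

/-!
# P095: traces, 2-norms and equality in the tracial representations
-/

open scoped ComplexOrder InnerProductSpace
open Complex

namespace Vale.Agent.P095

variable {B : Type*} [CStarAlgebra B] [PartialOrder B] [StarOrderedRing B]

/-- A tracial state. -/
structure Tr (B : Type*) [CStarAlgebra B] [PartialOrder B] [StarOrderedRing B] where
  f : B →ₚ[ℂ] ℂ
  map_one' : f 1 = 1
  tracial : ∀ x y, f (x * y) = f (y * x)

namespace Tr

variable (ω : Tr B)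

/-- The 2-norm of a trace. -/
noncomputable def nrm (x : B) : ℝ := ‖ω.f.toPreGNS x‖

/-- The GNS representation. -/
noncomputable def rep : B →⋆ₐ[ℂ] (ω.f.GNS →L[ℂ] ω.f.GNS) := ω.f.gnsStarAlgHom

theorem nrm_nonneg (x : B) : 0 ≤ ω.nrm x := norm_nonneg _

theorem nrm_sq (x : B) : ((ω.nrm x ^ 2 : ℝ) : ℂ) = ω.f (star x * x) := by
  have h := ω.f.preGNS_norm_sq (ω.f.toPreGNS x)
  rw [PositiveLinearMap.ofPreGNS_toPreGNS] at h
  unfold nrm
  rw [Complex.ofReal_pow]
  exact h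

theorem nrm_sq_re (x : B) : ω.nrm x ^ 2 = (ω.f (star x * x)).re := by
  rw [← ω.nrm_sq x, ofReal_re]

theorem nrm_sq_self {x : B} (hx : IsSelfAdjoint x) : ω.nrm x ^ 2 = (ω.f (x * x)).re := by
  rw [nrm_sq_re, hx.star_eq]

theorem nrm_zero : ω.nrm 0 = 0 := by simp [nrm]

theorem nrm_one : ω.nrm 1 = 1 := by
  have h := ω.nrm_sq_re 1
  rw [star_one, one_mul, ω.map_one', one_re] at h
  exact (pow_eq_one_iff_of_nonneg (ω.nrm_nonneg _) two_ne_zero).1 h

theorem nrm_add (x y : B) : ω.nrm (x + y) ≤ ω.nrm x + ω.nrm y := by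
  unfold nrm; rw [map_add]; exact norm_add_le _ _

theorem nrm_sub (x y : B) : ω.nrm (x - y) ≤ ω.nrm x + ω.nrm y := by
  unfold nrm; rw [map_sub]; exact norm_sub_le _ _

theorem nrm_smul (c : ℂ) (x : B) : ω.nrm (c • x) = ‖c‖ * ω.nrm x := by
  unfold nrm; rw [map_smul]; exact norm_smul _ _

theorem nrm_sum {ι : Type*} (s : Finset ι) (x : ι → B) :
    ω.nrm (∑ i ∈ s, x i) ≤ ∑ i ∈ s, ω.nrm (x i) := by
  unfold nrm; rw [map_sum]; exact norm_sum_le _ _

theorem norm_apply_star_mul_le (x y : B) : ‖ω.f (star x * y)‖ ≤ ω.nrm x * ω.nrm y := by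
  have h := norm_inner_le_norm (𝕜 := ℂ) (ω.f.toPreGNS x) (ω.f.toPreGNS y)
  rw [PositiveLinearMap.preGNS_inner_def, PositiveLinearMap.ofPreGNS_toPreGNS,
    PositiveLinearMap.ofPreGNS_toPreGNS] at h
  exact h

theorem nrm_mul_left (a x : B) : ω.nrm (a * x) ≤ ‖a‖ * ω.nrm x := by
  have h := (ω.f.leftMulMapPreGNS a).le_opNorm (ω.f.toPreGNS x)
  have h2 : ‖ω.f.leftMulMapPreGNS a‖ ≤ ‖a‖ := by
    rw [PositiveLinearMap.leftMulMapPreGNS]
    exact LinearMap.mkContinuous_norm_le _ (norm_nonneg _) _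
  have he : ω.f.leftMulMapPreGNS a (ω.f.toPreGNS x) = ω.f.toPreGNS (a * x) := by simp
  rw [he] at h
  exact h.trans (mul_le_mul_of_nonneg_right h2 (norm_nonneg _))

theorem nrm_star (x : B) : ω.nrm (star x) = ω.nrm x := by
  refine (sq_eq_sq₀ (ω.nrm_nonneg _) (ω.nrm_nonneg _)).1 ?_
  rw [nrm_sq_re, nrm_sq_re, star_star, ω.tracial]

theorem nrm_mul_right (a x : B) : ω.nrm (x * a) ≤ ω.nrm x * ‖a‖ := by
  rw [← nrm_star, star_mul, mul_comm, ← norm_star a, ← ω.nrm_star x]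
  exact ω.nrm_mul_left _ _

theorem nrm_le_norm (x : B) : ω.nrm x ≤ ‖x‖ := by
  simpa [nrm_one] using ω.nrm_mul_left x 1

theorem norm_apply_le (x : B) : ‖ω.f x‖ ≤ ω.nrm x := by
  simpa [nrm_one] using ω.norm_apply_star_mul_le 1 x

theorem abs_re_apply_le (x : B) : |(ω.f x).re| ≤ ω.nrm x :=
  (Complex.abs_re_le_norm _).trans (ω.norm_apply_le x)

theorem nonneg {x : B} (hx : 0 ≤ x) : 0 ≤ (ω.f x).re := (RCLike.nonneg_iff.1 (map_nonneg ω.f hx)).1

theorem im_eq_zero {x : B} (hx : 0 ≤ x) : (ω.f x).im = 0 :=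
  (RCLike.nonneg_iff.1 (map_nonneg ω.f hx)).2

theorem re_mono {x y : B} (h : x ≤ y) : (ω.f x).re ≤ (ω.f y).re :=
  (Complex.le_def.1 (OrderHomClass.mono ω.f h)).1

theorem norm_apply_eq {x : B} (hx : 0 ≤ x) : ‖ω.f x‖ = (ω.f x).re := by
  have : ω.f x = ((ω.f x).re : ℂ) := Complex.ext (by simp) (by simp [ω.im_eq_zero hx])
  rw [this, Complex.norm_real, ofReal_re, Real.norm_of_nonneg (ω.nonneg hx)]

/-- Multiplying by `c` enlarges the trace of a positive element at most by `‖c‖`. -/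
theorem norm_apply_mul_nonneg (c : B) {x : B} (hx : 0 ≤ x) :
    ‖ω.f (c * x)‖ ≤ ‖c‖ * (ω.f x).re := by
  set s := CFC.sqrt x
  have hs : star s = s := (CFC.sqrt_nonneg x).isSelfAdjoint.star_eq
  have hss : s * s = x := CFC.sqrt_mul_sqrt_self x hx
  have h1 : ω.f (c * x) = ω.f (star s * (c * s)) := by
    rw [hs, ← hss, ← mul_assoc, ω.tracial]
  have h2 : ω.nrm s ^ 2 = (ω.f x).re := by rw [nrm_sq_re, hs, hss]
  rw [h1]
  calc _ ≤ ω.nrm s * ω.nrm (c * s) := ω.norm_apply_star_mul_le _ _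
    _ ≤ ω.nrm s * (‖c‖ * ω.nrm s) :=
        mul_le_mul_of_nonneg_left (ω.nrm_mul_left _ _) (ω.nrm_nonneg _)
    _ = ‖c‖ * (ω.f x).re := by rw [← h2]; ring

/-- The trace of a product of positive elements is non-negative. -/
theorem re_mul_nonneg {x y : B} (hx : 0 ≤ x) (hy : 0 ≤ y) : 0 ≤ (ω.f (x * y)).re := by
  set s := CFC.sqrt y
  have hs : star s = s := (CFC.sqrt_nonneg y).isSelfAdjoint.star_eq
  rw [← CFC.sqrt_mul_sqrt_self y hy, ← mul_assoc, ω.tracial, ← mul_assoc]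
  refine ω.nonneg ?_
  have h := star_left_conjugate_nonneg hx s
  rwa [hs] at h

theorem rep_eq_iff (x y : B) : ω.rep x = ω.rep y ↔ ω.nrm (x - y) = 0 := by
  rw [← sub_eq_zero (a := ω.rep x), ← map_sub]
  generalize x - y = z
  constructor
  · intro h
    have h1 := DFunLike.congr_fun h ((ω.f.toPreGNS 1 : ω.f.PreGNS) : ω.f.GNS)
    simp [rep, PositiveLinearMap.gnsStarAlgHom] at h1
    have h2 := congrArg norm h1
    rw [UniformSpace.Completion.norm_coe, norm_zero] at h2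
    simpa [nrm] using h2
  · intro h
    ext v
    induction v using UniformSpace.Completion.induction_on with
    | hp => exact isClosed_eq (ContinuousLinearMap.continuous _) continuous_const
    | ih v =>
      simp [rep, PositiveLinearMap.gnsStarAlgHom]
      rw [← norm_eq_zero, UniformSpace.Completion.norm_coe]
      refine le_antisymm ?_ (norm_nonneg _)
      have := ω.nrm_mul_right (ω.f.ofPreGNS v) z
      rw [h, zero_mul] at this
      exact this

theorem nrm_congr {x y : B} (h : ω.rep x = ω.rep y) : ω.nrm x = ω.nrm y := by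
  have h0 := (ω.rep_eq_iff x y).1 h
  have h1 : ω.nrm x ≤ ω.nrm (x - y) + ω.nrm y := by simpa using ω.nrm_add (x - y) y
  have h2 : ω.nrm y ≤ ω.nrm x + ω.nrm (x - y) := by simpa using ω.nrm_sub x (x - y)
  linarith

theorem apply_congr {x y : B} (h : ω.rep x = ω.rep y) : ω.f x = ω.f y := by
  have h0 := (ω.rep_eq_iff x y).1 h
  rw [← sub_eq_zero, ← map_sub, ← norm_eq_zero]
  exact le_antisymm (h0 ▸ ω.norm_apply_le _) (norm_nonneg _)

theorem commute_iff (x y : B) : Commute (ω.rep x) (ω.rep y) ↔ ω.nrm (x * y - y * x) = 0 := by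
  rw [← rep_eq_iff, map_mul, map_mul]
  rfl

end Tr

end Vale.Agent.P095
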