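import Vale.Agent.P095.Waves

/-!
# P095: second order expansion and Lipschitz bound in a trace
-/

open scoped ComplexOrder
open Complex

namespace Vale.Agent.P095

variable {B : Type*} [CStarAlgebra B] [PartialOrder B] [StarOrderedRing B]

theorem norm_apply_mul_cfc (ω : Tr B) (c : B) {d : B} (hd : IsSelfAdjoint d) {f : ℝ → ℝ}
    (hf : Continuous f) {K : ℝ} (hK : 0 ≤ K) (h : ∀ x : ℝ, |x| ≤ ‖d‖ → |f x| ≤ K * x ^ 2) :
    ‖ω.f (c * cfc f d)‖ ≤ 3 * K * ‖c‖ * (ω.f (d * d)).re := by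
  have hsp : ∀ x ∈ spectrum ℝ d, |x| ≤ ‖d‖ := fun x hx => by
    have := norm_apply_le_norm_cfc (fun t : ℝ => t) d hx
    rwa [cfc_id' ℝ d, Real.norm_eq_abs] at this
  set P := cfc (fun x : ℝ => f x + K * (x * x)) d
  have hQ : cfc (fun x : ℝ => K * (x * x)) d = K • (d * d) := by
    rw [cfc_const_mul K _ d (by fun_prop), cfc_mul _ _ d (by fun_prop) (by fun_prop), cfc_id' ℝ d]
  have hP0 : 0 ≤ P := cfc_nonneg fun x hx => by
    have := (abs_le.1 (h x (hsp x hx))).1
    nlinarith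
  have hQ0 : 0 ≤ K • (d * d) := by
    refine smul_nonneg hK ?_
    have := star_mul_self_nonneg d; rwa [hd.star_eq] at this
  have e : cfc f d = P - K • (d * d) := by
    rw [← hQ, ← cfc_sub _ _ d (by fun_prop) (by fun_prop)]
    exact cfc_congr fun x _ => by ring
  have hP2 : (ω.f P).re ≤ 2 * K * (ω.f (d * d)).re := by
    have hle : P ≤ cfc (fun x : ℝ => 2 * (K * (x * x))) d :=
      cfc_mono (fun x hx => by have := (abs_le.1 (h x (hsp x hx))).2; nlinarith) (by fun_prop)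
        (by fun_prop)
    rw [cfc_const_mul (2 : ℝ) _ d (by fun_prop), hQ] at hle
    have h2 := ω.re_mono hle
    rwa [ω.apply_rsmul, ω.apply_rsmul, Complex.re_ofReal_mul, Complex.re_ofReal_mul,
      ← mul_assoc] at h2
  have h3 := ω.norm_apply_mul_nonneg c hQ0
  rw [ω.apply_rsmul, Complex.re_ofReal_mul] at h3
  rw [e, mul_sub, map_sub]
  refine (norm_sub_le _ _).trans ((add_le_add (ω.norm_apply_mul_nonneg c hP0) h3).trans ?_)
  nlinarith [mul_le_mul_of_nonneg_left hP2 (norm_nonneg c)]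

theorem norm_wave_taylor (s x : ℝ) (h : |s * x| ≤ 1) :
    ‖wave s x - (1 + I * s * x - (s ^ 2 / 2 : ℝ) * ((x : ℂ) * x))‖ ≤ |s * x| ^ 3 := by
  have hz : ‖I * s * x‖ ≤ 1 := by
    rw [norm_mul, norm_mul, Complex.norm_I, Complex.norm_real, Complex.norm_real, one_mul,
      Real.norm_eq_abs, Real.norm_eq_abs, ← abs_mul]; exact h
  have := Complex.exp_bound hz (n := 3) (by norm_num)
  have e : ∑ m ∈ Finset.range 3, (I * s * x : ℂ) ^ m / (m.factorial : ℂ) =
      1 + I * s * x - (s ^ 2 / 2 : ℝ) * ((x : ℂ) * x) := by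
    simp [Finset.sum_range_succ, Nat.factorial]
    ring_nf
    rw [Complex.I_sq]
    ring
  rw [e, norm_mul (I * ↑s) ↑x, norm_mul I, Complex.norm_I, Complex.norm_real, Complex.norm_real,
    one_mul, Real.norm_eq_abs, Real.norm_eq_abs, ← abs_mul] at this
  refine this.trans (mul_le_of_le_one_right (by positivity) ?_)
  norm_num [Nat.factorial]

/-- Second order expansion of `ω (c exp (i s d))`. -/
theorem apply_wave_expand (ω : Tr B) (c : B) {d : B} (hd : IsSelfAdjoint d) {R s : ℝ}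
    (hR : ‖d‖ ≤ R) (hs : |s| * R ≤ 1) :
    ‖ω.f (c * fc (wave s) d) -
        (ω.f c + I * s * ω.f (c * d) - (s ^ 2 / 2 : ℝ) * ω.f (c * (d * d)))‖ ≤
      6 * (|s| ^ 3 * R) * ‖c‖ * (ω.f (d * d)).re := by
  set r : ℝ → ℂ := fun x => wave s x - (1 + I * s * x - (s ^ 2 / 2 : ℝ) * ((x : ℂ) * x)) with hr
  have cw := continuous_wave s
  have cr : Continuous r := by fun_prop
  have e1 : fc r d = fc (wave s) d -
      (1 + (I * s : ℂ) • d - ((s ^ 2 / 2 : ℝ) : ℂ) • (d * d)) := by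
    rw [hr, fc_sub cw (by fun_prop), fc_sub (by fun_prop) (by fun_prop),
      fc_add continuous_const (by fun_prop), fc_const hd, fc_const_mul _ (by fun_prop), fc_id hd,
      fc_const_mul _ (by fun_prop), fc_mul (by fun_prop) (by fun_prop), fc_id hd, map_one]
  have e2 : ω.f (c * fc r d) = ω.f (c * fc (wave s) d) -
      (ω.f c + I * s * ω.f (c * d) - (s ^ 2 / 2 : ℝ) * ω.f (c * (d * d))) := by
    rw [e1, mul_sub, map_sub, mul_sub, map_sub, mul_add, map_add, mul_one, mul_smul_comm,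
      map_smul, mul_smul_comm, map_smul, smul_eq_mul, smul_eq_mul]
  have hK : 0 ≤ |s| ^ 3 * R := mul_nonneg (by positivity) ((norm_nonneg d).trans hR)
  have hb : ∀ x : ℝ, |x| ≤ ‖d‖ → ‖r x‖ ≤ |s| ^ 3 * R * x ^ 2 := by
    intro x hx
    have h1 : |s * x| ≤ 1 := by
      rw [abs_mul]
      exact (mul_le_mul_of_nonneg_left (hx.trans hR) (abs_nonneg s)).trans hs
    refine (norm_wave_taylor s x h1).trans ?_
    rw [abs_mul, mul_pow, mul_assoc, ← sq_abs x, pow_succ' |x| 2]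
    exact mul_le_mul_of_nonneg_left
      (mul_le_mul_of_nonneg_right (hx.trans hR) (by positivity)) (by positivity)
  have e3 : fc r d = cfc (fun x => (r x).re) d + I • cfc (fun x => (r x).im) d := by
    rw [← fc_real hd, ← fc_real hd, ← fc_const_mul _ (by fun_prop),
      ← fc_add (by fun_prop) (by fun_prop)]
    congr 1
    funext x
    rw [mul_comm]; exact (Complex.re_add_im _).symm
  rw [← e2, e3, mul_add, map_add, mul_smul_comm, map_smul, smul_eq_mul]
  refine (norm_add_le _ _).trans ?_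
  rw [norm_mul, Complex.norm_I, one_mul]
  have u1 := norm_apply_mul_cfc ω c hd (f := fun x => (r x).re) (by fun_prop) hK
    fun x hx => (Complex.abs_re_le_norm _).trans (hb x hx)
  have u2 := norm_apply_mul_cfc ω c hd (f := fun x => (r x).im) (by fun_prop) hK
    fun x hx => (Complex.abs_im_le_norm _).trans (hb x hx)
  linarith

theorem nrm_pow_sub (ω : Tr B) {X Y : B} (hX : ‖X‖ ≤ 1) (hY : ‖Y‖ ≤ 1) :
    ∀ M : ℕ, ω.nrm (X ^ M - Y ^ M) ≤ M * ω.nrm (X - Y) := by
  intro M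
  induction M with
  | zero => simp [ω.nrm_zero]
  | succ k ih =>
    have hXk : ‖X ^ k‖ ≤ 1 := by
      rcases subsingleton_or_nontrivial B with hB | hB
      · simp [Subsingleton.elim (X ^ k) 0]
      · exact (norm_pow_le _ _).trans (pow_le_one₀ (norm_nonneg _) hX)
    rw [show X ^ (k + 1) - Y ^ (k + 1) = X ^ k * (X - Y) + (X ^ k - Y ^ k) * Y by
      rw [pow_succ, pow_succ]; noncomm_ring]
    refine (ω.nrm_add _ _).trans ?_
    push_cast
    have a1 := ω.nrm_mul_left (X ^ k) (X - Y)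
    have a2 := ω.nrm_mul_right Y (X ^ k - Y ^ k)
    nlinarith [ω.nrm_nonneg (X - Y), ω.nrm_nonneg (X ^ k - Y ^ k)]

theorem nrm_wave_sub (ω : Tr B) {X Y : B} (hX : IsSelfAdjoint X) (hY : IsSelfAdjoint Y) (t : ℝ) :
    ω.nrm (fc (wave t) X - fc (wave t) Y) ≤ |t| * ω.nrm (X - Y) := by
  refine le_of_forall_pos_le_add fun ε hε => ?_
  set R := ‖X‖ + ‖Y‖
  set K := 2 * t ^ 2 * R ^ 2 / ε + |t| * R + 1
  obtain ⟨M, hM⟩ := exists_nat_gt K
  have hM0 : (0 : ℝ) < M := lt_of_le_of_lt (by positivity) hM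
  set s := t / M with hs
  have hsR : |s| * R ≤ 1 := by
    rw [hs, abs_div, abs_of_pos hM0, div_mul_eq_mul_div, div_le_one hM0]
    have : 0 ≤ 2 * t ^ 2 * R ^ 2 / ε := by positivity
    linarith
  have lin : ∀ Z : B, IsSelfAdjoint Z → ‖Z‖ ≤ R →
      ‖fc (wave s) Z - (1 + (I * s : ℂ) • Z)‖ ≤ (|s| * R) ^ 2 := by
    intro Z hZ hZR
    have e : fc (fun x => wave s x - (1 + I * s * x)) Z =
        fc (wave s) Z - (1 + (I * s : ℂ) • Z) := by
      rw [fc_sub (continuous_wave s) (by fun_prop), fc_add continuous_const (by fun_prop),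
        fc_const hZ, fc_const_mul _ (by fun_prop), fc_id hZ, map_one]
    rw [← e]
    refine norm_fc_le hZ (by positivity) fun x hx => ?_
    have h1 : ‖I * s * x‖ ≤ |s| * R := by
      rw [norm_mul, norm_mul, Complex.norm_I, Complex.norm_real, Complex.norm_real, one_mul]
      exact mul_le_mul_of_nonneg_left (hx.trans hZR) (abs_nonneg _)
    have := Complex.norm_exp_sub_one_sub_id_le (h1.trans hsR)
    rw [← sub_sub]
    exact this.trans (pow_le_pow_left₀ (norm_nonneg _) h1 2)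
  have hpow : ∀ Z : B, IsSelfAdjoint Z → fc (wave t) Z = fc (wave s) Z ^ M := fun Z hZ => by
    rw [fc_wave_pow hZ, hs, mul_div_cancel₀ _ hM0.ne']
  rw [hpow X hX, hpow Y hY]
  refine (nrm_pow_sub ω (norm_fc_wave hX s) (norm_fc_wave hY s) M).trans ?_
  have h2 : ω.nrm (fc (wave s) X - fc (wave s) Y) ≤ |s| * ω.nrm (X - Y) + 2 * (|s| * R) ^ 2 := by
    rw [show fc (wave s) X - fc (wave s) Y = (I * s : ℂ) • (X - Y) +
      ((fc (wave s) X - (1 + (I * s : ℂ) • X)) - (fc (wave s) Y - (1 + (I * s : ℂ) • Y))) by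
        rw [smul_sub]; abel]
    refine (ω.nrm_add _ _).trans (add_le_add (le_of_eq ?_) ?_)
    · rw [ω.nrm_smul]; simp
    · refine (ω.nrm_le_norm _).trans ((norm_sub_le _ _).trans ?_)
      have := lin X hX (le_add_of_nonneg_right (norm_nonneg _))
      have := lin Y hY (le_add_of_nonneg_left (norm_nonneg _))
      linarith
  refine (mul_le_mul_of_nonneg_left h2 hM0.le).trans ?_
  have e1 : (M : ℝ) * (|s| * ω.nrm (X - Y)) = |t| * ω.nrm (X - Y) := by
    rw [hs, abs_div, abs_of_pos hM0]; field_simp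
  have e2 : (M : ℝ) * (2 * (|s| * R) ^ 2) ≤ ε := by
    rw [hs, abs_div, abs_of_pos hM0, mul_pow, div_pow, sq_abs]
    have : 2 * t ^ 2 * R ^ 2 / ε ≤ M := by
      have : 0 ≤ |t| * R := by positivity
      linarith
    rw [div_le_iff₀ hε] at this
    calc (M : ℝ) * (2 * (t ^ 2 / (M : ℝ) ^ 2 * R ^ 2)) = 2 * t ^ 2 * R ^ 2 / M := by field_simp
      _ ≤ ε := by rw [div_le_iff₀ hM0]; linarith
  rw [mul_add, e1]
  linarith

end Vale.Agent.P095
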