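import Vale.Agent.P095.Sys

/-!
# P095: translates of approximately central matrix units
-/

open scoped ComplexOrder

namespace Vale.Agent.P095

variable {G B : Type*} [Group G] [CStarAlgebra B] [PartialOrder B] [StarOrderedRing B]

/-- Translates `eg g` of a small central projection and partial isometries starting at them. -/
structure Frame (S : Sys G B) (C : Finset B) (F : Finset G) (n : ℕ) where
  eg : G → B
  u : G → Fin n → B
  eg_nonneg : ∀ g, 0 ≤ eg g
  eg_norm : ∀ g, ‖eg g‖ ≤ 1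
  u_norm : ∀ g i, ‖u g i‖ ≤ 1
  eg_idem : ∀ g, S.Eqv (eg g * eg g) (eg g)
  eg_map : ∀ k g, S.α k (eg g) = eg (k * g)
  eg_trace : ∀ g, ∀ ω ∈ S.Ω, ω.f (eg g) = ((n : ℝ)⁻¹ : ℝ)
  eg_weight : ∀ g ∈ F, ∀ c ∈ C, ∀ ω ∈ S.Ω, ω.f (c * eg g) = ((n : ℝ)⁻¹ : ℝ) * ω.f c
  eg_comm : ∀ g ∈ F, ∀ c ∈ C, ∀ ω ∈ S.Ω, Commute (ω.rep c) (ω.rep (eg g))
  u_comm : ∀ g ∈ F, ∀ c ∈ C, ∀ i, ∀ ω ∈ S.Ω,
    Commute (ω.rep c) (ω.rep (u g i)) ∧ Commute (ω.rep c) (ω.rep (star (u g i)))
  u_self : ∀ g i, S.Eqv (star (u g i) * u g i) (eg g)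
  u_orth : ∀ g i j, i ≠ j → S.Eqv (star (u g i) * u g j) 0

open Classical in
theorem exists_frame (S : Sys G B) (F : Finset G) (n : ℕ) (hn : 0 < n) (C : Finset B) :
    Nonempty (Frame S C F n) := by
  set z : Fin n := ⟨0, hn⟩
  obtain ⟨E, hEn, hE⟩ := S.units (F.biUnion fun g => C.image (S.α g).symm) n
  set e : B := star (E z z) * E z z with he
  have hez : S.Eqv e (E z z) := fun ω hω => by
    rw [he, map_mul, (hE ω hω).2.1 z z, ← map_mul, (hE ω hω).1 z z z z, if_pos rfl]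
  have hee : S.Eqv (e * e) e := fun ω hω => by
    rw [map_mul, hez ω hω, ← map_mul, (hE ω hω).1 z z z z, if_pos rfl]
  have htr : ∀ ω ∈ S.Ω, ∀ c, (∀ i j, Commute (ω.rep c) (ω.rep (E i j))) →
      ω.f (c * e) = ((n : ℝ)⁻¹ : ℝ) * ω.f c := by
    intro ω hω c hc
    obtain ⟨r1, -, r3, -⟩ := hE ω hω
    have h : ∀ i, ω.f (c * E i i) = ω.f (c * E z z) := by
      intro i
      have e1 : ω.rep (c * E i i) = ω.rep (c * E i z * E z i) := by
        rw [mul_assoc, map_mul, map_mul (ω.rep) c, r1, if_pos rfl]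
      have e2 : ω.rep (E z i * (c * E i z)) = ω.rep (c * E z z) := by
        rw [map_mul, map_mul, ← mul_assoc, ← (hc z i).eq, mul_assoc, ← map_mul (ω.rep) (E z i),
          r1, if_pos rfl, map_mul]
      rw [ω.apply_congr e1, ω.tracial, ω.apply_congr e2]
    have hsum : ω.f c = (n : ℂ) * ω.f (c * E z z) := by
      have e3 : ω.rep (c * ∑ i, E i i) = ω.rep c := by rw [map_mul, r3 hn, mul_one]
      rw [← ω.apply_congr e3, Finset.mul_sum, map_sum]
      simp [h]
    have hn' : (n : ℂ) ≠ 0 := Nat.cast_ne_zero.2 hn.ne'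
    have : ω.rep (c * e) = ω.rep (c * E z z) := by
      rw [map_mul, map_mul (ω.rep) c, hez ω hω]
    rw [ω.apply_congr this, hsum, Complex.ofReal_inv, Complex.ofReal_natCast,
      inv_mul_cancel_left₀ hn']
  have hmem : ∀ g ∈ F, ∀ c ∈ C, ∀ ω ∈ S.Ω, ∀ i j,
      Commute (ω.rep ((S.α g).symm c)) (ω.rep (E i j)) := fun g hg c hc ω hω i j =>
    (hE ω hω).2.2.2 _ (Finset.mem_biUnion.2 ⟨g, hg, Finset.mem_image_of_mem _ hc⟩) i j
  have hcomm : ∀ g ∈ F, ∀ c ∈ C, ∀ i j, ∀ ω ∈ S.Ω,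
      Commute (ω.rep c) (ω.rep (S.α g (E i j))) := by
    intro g hg c hc i j ω hω
    have h : S.Eqv ((S.α g).symm c * E i j) (E i j * (S.α g).symm c) := fun ω' hω' => by
      rw [map_mul, map_mul]; exact (hmem g hg c hc ω' hω' i j).eq
    have := h.map g ω hω
    rwa [map_mul (S.α g), map_mul (S.α g), StarAlgEquiv.apply_symm_apply, map_mul, map_mul]
      at this
  refine ⟨{
    eg := fun g => S.α g e
    u := fun g i => S.α g (E i z)
    eg_nonneg := fun g => Sys.α_nonneg g (star_mul_self_nonneg _)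
    eg_norm := fun g => ?_
    u_norm := fun g i => by rw [Sys.norm_α]; exact hEn i z
    eg_idem := fun g => by rw [← map_mul]; exact hee.map g
    eg_map := fun k g => (S.α_mul k g e).symm
    eg_trace := fun g ω hω => ?_
    eg_weight := fun g hg c hc ω hω => ?_
    eg_comm := fun g hg c hc ω hω => ?_
    u_comm := fun g hg c hc i ω hω => ⟨hcomm g hg c hc i z ω hω, ?_⟩
    u_self := fun g i => ?_
    u_orth := fun g i j hij => ?_ }⟩
  · rw [Sys.norm_α, he, CStarRing.norm_star_mul_self]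
    nlinarith [hEn z z, norm_nonneg (E z z)]
  · obtain ⟨ω', hω', hf⟩ := S.invariant ω hω g
    have h := htr ω' hω' 1 fun i j => by rw [map_one]; exact Commute.one_left _
    rw [one_mul, ω'.map_one', mul_one, hf] at h
    exact h
  · obtain ⟨ω', hω', hf⟩ := S.invariant ω hω g
    have h := htr ω' hω' ((S.α g).symm c) (hmem g hg c hc ω' hω')
    simpa [hf] using h
  · rw [hez.map g ω hω]; exact hcomm g hg c hc z z ω hω
  · have : S.Eqv (star (E i z)) (E z i) := fun ω' hω' => (hE ω' hω').2.1 i z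
    rw [← map_star (S.α g), this.map g ω hω]
    exact hcomm g hg c hc z i ω hω
  · rw [← map_star, ← map_mul]
    refine Sys.Eqv.map (fun ω hω => ?_) g
    rw [map_mul, (hE ω hω).2.1 i z, ← map_mul, (hE ω hω).1 z i i z, if_pos rfl, hez ω hω]
  · rw [← map_star, ← map_mul, ← map_zero (S.α g)]
    refine Sys.Eqv.map (fun ω hω => ?_) g
    rw [map_mul, (hE ω hω).2.1 i z, ← map_mul, (hE ω hω).1 z i j z, if_neg hij, map_zero]

end Vale.Agent.P095
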