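import Vale.Agent.P095.Partition
import Vale.Agent.P095.Model

/-!
# P095: equivariant uniform property Gamma for actions of amenable groups
-/

open scoped ComplexOrder
open Filter Topology

namespace Vale.Agent.P095

variable {G A : Type*} [Group G] [CStarAlgebra A]

theorem tendsto_twoNorm [Nontrivial A] {τ : ℕ → A →ₗ[ℂ] ℂ} (h : ∀ i, IsTracial (τ i))
    (z : BSeq A) :
    Tendsto (fun i => (τ i (star (z.get i) * z.get i)).re) (hyperfilter ℕ : Filter ℕ)
      (𝓝 ((limTr h).nrm z ^ 2)) := by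
  rw [Tr.nrm_sq_re]
  exact ((Complex.continuous_re.tendsto _).comp (tendsto_limTr h _)).congr fun i => by simp

theorem not_tracial_of_subsingleton [Subsingleton A] (τ : A →ₗ[ℂ] ℂ) : ¬IsTracial τ := fun h => by
  have := h.1
  rw [Subsingleton.elim (1 : A) 0, map_zero] at this
  exact zero_ne_one this

/-- Every action of an amenable group on a uniformly McDuff algebra has equivariant uniform
property Gamma. -/
theorem hasEquivariantUniformGamma (hA : IsUniformlyMcDuff A) (hG : IsAmenableGroup G)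
    (α : G → A ≃⋆ₐ[ℂ] A) (hα : ∀ g h a, α (g * h) a = α g (α h a)) :
    HasEquivariantUniformGamma α := by
  classical
  intro C K n hn ε hε
  rcases subsingleton_or_nontrivial A with hs | hs
  · exact ⟨fun _ => 0, fun i => ⟨0, by simp⟩, Subsingleton.elim _ _,
      fun i τ h => absurd h (not_tracial_of_subsingleton τ),
      fun c _ i τ h => absurd h (not_tracial_of_subsingleton τ),
      fun k _ i τ h => absurd h (not_tracial_of_subsingleton τ),
      fun c _ i τ h => absurd h (not_tracial_of_subsingleton τ)⟩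
  set ε' := min (ε / 2) (min 1 (ε / 2)) with hε'
  have he : 0 < ε' := lt_min (by positivity) (lt_min one_pos (by positivity))
  obtain ⟨p, hp0, hp1, hpω⟩ :=
    exists_partition hG (seqSys hA α hα) (C.image BSeq.const) K n hn he
  let q : Fin n ⊕ (C × Fin n) ⊕ (K × Fin n) ⊕ (C × Fin n) → ℕ → (A →ₗ[ℂ] ℂ) → ℝ :=
    fun j i τ => match j with
    | .inl a => (τ (star ((p a * p a - p a).get i) * (p a * p a - p a).get i)).re
    | .inr (.inl (c, a)) => (τ (star ((BSeq.const c.1 * p a - p a * BSeq.const c.1).get i) *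
        (BSeq.const c.1 * p a - p a * BSeq.const c.1).get i)).re
    | .inr (.inr (.inl (k, a))) => (τ (star ((mapSeq (α k.1) (p a) - p a).get i) *
        (mapSeq (α k.1) (p a) - p a).get i)).re
    | .inr (.inr (.inr (c, a))) => ‖τ ((BSeq.const c.1 * p a).get i) - τ c.1 / n‖
  let L : Fin n ⊕ (C × Fin n) ⊕ (K × Fin n) ⊕ (C × Fin n) → Tr (BSeq A) → ℝ :=
    fun j ω => match j with
    | .inl a => ω.nrm (p a * p a - p a) ^ 2
    | .inr (.inl (c, a)) => ω.nrm (BSeq.const c.1 * p a - p a * BSeq.const c.1) ^ 2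
    | .inr (.inr (.inl (k, a))) => ω.nrm (mapSeq (α k.1) (p a) - p a) ^ 2
    | .inr (.inr (.inr (c, a))) => ‖ω.f (BSeq.const c.1 * p a) - ω.f (BSeq.const c.1) / n‖
  have h1 : ε' ≤ ε / 2 := min_le_left _ _
  have hlim : ∀ j (τ : ℕ → A →ₗ[ℂ] ℂ) (h : ∀ i, IsTracial (τ i)),
      Tendsto (fun i => q j i (τ i)) (hyperfilter ℕ : Filter ℕ) (𝓝 (L j (limTr h))) := by
    intro j τ h
    rcases j with a | ⟨c, a⟩ | ⟨k, a⟩ | ⟨c, a⟩
    · exact tendsto_twoNorm h _
    · exact tendsto_twoNorm h _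
    · exact tendsto_twoNorm h _
    · have h2 := ((tendsto_limTr h (BSeq.const c.1 * p a)).sub
        ((tendsto_limTr h (BSeq.const c.1)).div_const (n : ℂ))).norm
      simp only [BSeq.get_const] at h2
      simp only [q, L]
      exact h2
  have hsmall : ∀ ω ∈ limTraces A, ∀ j, L j ω < ε := by
    intro ω hω j
    obtain ⟨hidem, -, hcw, hk⟩ := hpω ω hω
    rcases j with a | ⟨c, a⟩ | ⟨k, a⟩ | ⟨c, a⟩
    · exact lt_of_le_of_lt (hidem a) (by linarith)
    · have h0 := (ω.commute_iff _ _).1 (hcw _ (Finset.mem_image_of_mem _ c.2) a).1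
      simp only [L, h0]
      simpa using hε
    · have h2 : ω.nrm (mapSeq (α k.1) (p a) - p a) ≤ ε' := hk k.1 k.2 a
      have h3 : ε' ≤ 1 := (min_le_right _ _).trans (min_le_left _ _)
      simp only [L]
      nlinarith [ω.nrm_nonneg (mapSeq (α k.1) (p a) - p a)]
    · exact lt_of_le_of_lt (hcw _ (Finset.mem_image_of_mem _ c.2) a).2 (by linarith)
  obtain ⟨i, hi⟩ := exists_index q L hlim ε hsmall
  refine ⟨fun a => (p a).get i, fun a => ?_, ?_, fun a τ h => ?_, fun c hc a τ h => ?_,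
    fun k hk a τ h => ?_, fun c hc a τ h => ?_⟩
  · obtain ⟨s, hs'⟩ := CStarAlgebra.nonneg_iff_eq_star_mul_self.1 (hp0 a)
    exact ⟨s.get i, by simp only [hs']; simp⟩
  · rw [← BSeq.get_sum, hp1]; simp
  · simpa [q] using hi τ h (.inl a)
  · simpa [q] using hi τ h (.inr (.inl (⟨c, hc⟩, a)))
  · simpa [q] using hi τ h (.inr (.inr (.inl (⟨k, hk⟩, a))))
  · simpa [q] using hi τ h (.inr (.inr (.inr (⟨c, hc⟩, a))))

end Vale.Agent.P095
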