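import Vale.Agent.P095.Increment
import Vale.Agent.P095.Estimates

/-!
# P095: an almost invariant element with Gaussian Fourier transform
-/

open scoped ComplexOrder
open Complex

namespace Vale.Agent.P095

variable {G B : Type*} [Group G] [CStarAlgebra B] [PartialOrder B] [StarOrderedRing B]

theorem wave_map_α (S : Sys G B) (k : G) {X : B} (hX : IsSelfAdjoint X) (t : ℝ) :
    S.α k (fc (wave t) X) = fc (wave t) (S.α k X) :=
  fc_map (S.α k) (StarAlgEquiv.isometry (S.α k)).continuous (continuous_wave t) hX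

theorem rep_fc_commute (ω : Tr B) {X : B} (hX : IsSelfAdjoint X) {g : ℝ → ℂ} (hg : Continuous g)
    {c : B} (h : Commute (ω.rep c) (ω.rep X)) : Commute (ω.rep c) (ω.rep (fc g X)) := by
  rw [fc_map ω.rep (map_continuous ω.rep) hg hX]
  exact ((h.symm).cfc (by rw [(hX.map ω.rep).star_eq]; exact h.symm) _).symm

theorem rep_wave_add (ω : Tr B) {X Y : B} (hX : IsSelfAdjoint X) (hY : IsSelfAdjoint Y)
    (h : Commute (ω.rep X) (ω.rep Y)) (t : ℝ) :
    ω.rep (fc (wave t) (X + Y)) = ω.rep (fc (wave t) X * fc (wave t) Y) := by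
  have hc : Continuous ω.rep := map_continuous ω.rep
  rw [map_mul, fc_map ω.rep hc (continuous_wave t) (hX.add hY),
    fc_map ω.rep hc (continuous_wave t) hX, fc_map ω.rep hc (continuous_wave t) hY, map_add,
    fc_wave_add (hX.map _) (hY.map _) h]

open Classical in
theorem exists_gaussian (hG : Foelner G) (S : Sys G B) (C0 : Finset B) (K : Finset G)
    (T : Finset ℝ) {L ε : ℝ} (hL : 0 < L) (hε : 0 < ε) :
    ∃ X : B, IsSelfAdjoint X ∧ ∀ ω ∈ S.Ω, (∀ c ∈ C0, Commute (ω.rep c) (ω.rep X) ∧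
        ∀ t ∈ T, ‖ω.f (c * fc (wave t) X)‖ ≤ ‖c‖ * (Real.exp (-(L * t ^ 2 / 2)) + ε)) ∧
      ∀ k ∈ K, ω.nrm (S.α k X - X) ^ 2 ≤ ε := by
  set Q := ∑ t ∈ T, |t| + 1 with hQ
  have hQ1 : 1 ≤ Q := le_add_of_nonneg_left (Finset.sum_nonneg fun _ _ => abs_nonneg _)
  have htQ : ∀ t ∈ T, |t| ≤ Q := fun t ht =>
    (Finset.single_le_sum (fun s _ => abs_nonneg s) ht).trans (le_add_of_nonneg_right zero_le_one)
  set μ := min 1 (ε / (L * Q ^ 2)) with hμ'
  have hμ : 0 < μ := lt_min one_pos (by positivity)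
  obtain ⟨δ, R, hδ0, -, hR, hstep⟩ :=
    exists_step hG S K (ν := ε / L) (by positivity) hμ
  set θ' := min 1 (min (1 / (Q * R)) (ε / (2 * (12 * Q ^ 3 * R * L)))) with hθ''
  have hθ'0 : 0 < θ' := lt_min one_pos (lt_min (by positivity) (by positivity))
  obtain ⟨m, hm⟩ := exists_nat_gt (max (L / (δ * θ' ^ 2)) (L * Q ^ 2))
  have hm1 := (le_max_left _ _).trans hm.le
  have hm2 := (le_max_right _ _).trans hm.le
  have hm0 : (0 : ℝ) < m := lt_of_le_of_lt (le_max_of_le_right (by positivity)) hm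
  set θ := Real.sqrt (L / (m * δ)) with hθ'
  have hθ0 : 0 < θ := Real.sqrt_pos.2 (by positivity)
  have hθ2 : θ ^ 2 = L / (m * δ) := Real.sq_sqrt (by positivity)
  have hθle : θ ≤ θ' := by
    rw [hθ', Real.sqrt_le_left hθ'0.le, div_le_iff₀ (by positivity)]
    rw [div_le_iff₀ (by positivity)] at hm1
    linarith
  set err : ℝ → ℝ := fun t => (t * θ) ^ 2 / 2 * (μ * δ) + 12 * (|t * θ| ^ 3 * R) * δ with herr
  set q : ℝ → ℝ := fun t => 1 - (t * θ) ^ 2 / 2 * δ with hq
  have hmθ : (m : ℝ) * θ ^ 2 * δ = L := by rw [hθ2]; field_simp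
  have hq0 : ∀ t ∈ T, 0 ≤ q t ∧ q t ≤ 1 := by
    intro t ht
    refine ⟨?_, sub_le_self _ (by positivity)⟩
    have : t ^ 2 ≤ Q ^ 2 := by rw [← sq_abs]; exact pow_le_pow_left₀ (abs_nonneg t) (htQ t ht) 2
    rw [hq, sub_nonneg, mul_pow, hθ2]
    calc t ^ 2 * (L / (m * δ)) / 2 * δ = L * t ^ 2 / m / 2 := by field_simp
      _ ≤ 1 := by
        rw [div_le_iff₀ two_pos, div_le_iff₀ hm0]
        nlinarith
  have herr0 : ∀ t, 0 ≤ err t := fun t => by positivity
  have hstR : ∀ t ∈ T, |t * θ| * R ≤ 1 := by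
    intro t ht
    have h1 : θ * (Q * R) ≤ 1 := by
      rw [← le_div_iff₀ (by positivity)]
      exact hθle.trans ((min_le_right _ _).trans (min_le_left _ _))
    rw [abs_mul, abs_of_pos hθ0]
    calc |t| * θ * R ≤ Q * θ * R := by gcongr; exact htQ t ht
      _ = θ * (Q * R) := by ring
      _ ≤ 1 := h1
  have main : ∀ j : ℕ, ∃ X : B, IsSelfAdjoint X ∧ ∀ ω ∈ S.Ω,
      (∀ c ∈ C0, Commute (ω.rep c) (ω.rep X) ∧
        ∀ t ∈ T, ‖ω.f (c * fc (wave t) X)‖ ≤ ‖c‖ * (q t ^ j + j * err t)) ∧
      ∀ k ∈ K, ω.nrm (S.α k X - X) ^ 2 ≤ j * θ ^ 2 * (ε / L * δ) := by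
    intro j
    induction j with
    | zero =>
      refine ⟨0, IsSelfAdjoint.zero B, fun ω hω => ⟨fun c hc => ⟨?_, fun t ht => ?_⟩,
        fun k hk => ?_⟩⟩
      · rw [map_zero]; exact Commute.zero_right _
      · refine ((ω.norm_apply_le _).trans (ω.nrm_le_norm _)).trans ?_
        simpa using (norm_mul_le _ _).trans
          (mul_le_of_le_one_right (norm_nonneg c) (norm_fc_wave (IsSelfAdjoint.zero B) t))
      · simp [ω.nrm_zero]
    | succ j ih =>
      obtain ⟨X, hX, hXω⟩ := ih
      set C : Finset B := insert X (insert 1 (C0 ∪ C0.biUnion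
        (fun c => T.image fun t => c * fc (wave t) X) ∪ K.image (fun k => S.α k X - X) ∪
        K.image (fun k => (S.α k).symm (S.α k X - X)))) with hC
      obtain ⟨d, hd, hdR, hdω⟩ := hstep C
      have hθd : IsSelfAdjoint ((θ : ℂ) • d) := IsSelfAdjoint.smul (Complex.conj_ofReal θ) hd
      refine ⟨X + (θ : ℂ) • d, hX.add hθd, fun ω hω => ?_⟩
      obtain ⟨hC0, hK⟩ := hXω ω hω
      obtain ⟨hdC, hdK⟩ := hdω ω hω
      have hXd : Commute (ω.rep X) (ω.rep ((θ : ℂ) • d)) := by
        rw [map_smul]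
        exact (hdC X (Finset.mem_insert_self _ _)).1.smul_right _
      have hdd : (ω.f (d * d)).re ≤ 2 * δ := by
        have h := (hdC 1 (Finset.mem_insert_of_mem (Finset.mem_insert_self _ _))).2.2
        have hn : ‖(1 : B)‖ ≤ 1 := by
          rcases subsingleton_or_nontrivial B with hB | hB
          · simp [Subsingleton.elim (1 : B) 0]
          · exact norm_one.le
        rw [one_mul, ω.map_one', mul_one] at h
        have h2 := (Complex.re_le_norm _).trans h
        rw [Complex.sub_re, Complex.ofReal_re] at h2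
        nlinarith [mul_nonneg hδ0.le (norm_nonneg (1 : B)),
          mul_le_mul_of_nonneg_left hn (mul_nonneg hμ.le hδ0.le), min_le_left 1 (ε / (L * Q ^ 2))]
      refine ⟨fun c hc => ⟨?_, fun t ht => ?_⟩, fun k hk => ?_⟩
      · rw [map_add, map_smul]
        exact (hC0 c hc).1.add_right ((hdC c (Finset.mem_insert_of_mem (Finset.mem_insert_of_mem
          (Finset.mem_union_left _ (Finset.mem_union_left _
            (Finset.mem_union_left _ hc)))))).1.smul_right _)
      · set c' := c * fc (wave t) X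
        have hc' : c' ∈ C := Finset.mem_insert_of_mem (Finset.mem_insert_of_mem
          (Finset.mem_union_left _ (Finset.mem_union_left _ (Finset.mem_union_right _
            (Finset.mem_biUnion.2 ⟨c, hc, Finset.mem_image_of_mem _ ht⟩)))))
        obtain ⟨-, hmean, hvar⟩ := hdC c' hc'
        have e : ω.f (c * fc (wave t) (X + (θ : ℂ) • d)) = ω.f (c' * fc (wave (t * θ)) d) := by
          rw [← fc_wave_smul hd]
          refine ω.apply_congr ?_
          rw [map_mul, rep_wave_add ω hX hθd hXd, ← map_mul, ← mul_assoc]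
        have hn : ‖c'‖ ≤ ‖c‖ :=
          (norm_mul_le _ _).trans (mul_le_of_le_one_right (norm_nonneg c) (norm_fc_wave hX t))
        have hx := apply_wave_expand ω c' hd hdR (s := t * θ) (hstR t ht)
        rw [hmean, mul_zero, add_zero] at hx
        rw [e]
        set z := ω.f c'
        set w := ω.f (c' * fc (wave (t * θ)) d)
        set v := ω.f (c' * (d * d))
        have hz : ‖z‖ ≤ ‖c‖ * (q t ^ j + j * err t) := (hC0 c hc).2 t ht
        obtain ⟨hq1, hq2⟩ := hq0 t ht
        have h1 : ‖w‖ ≤ q t * ‖z‖ + ‖c‖ * err t := by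
          have e2 : w = (q t : ℂ) * z + (w - (z - ((t * θ) ^ 2 / 2 : ℝ) * v)) -
              ((t * θ) ^ 2 / 2 : ℝ) * (v - (δ : ℂ) * z) := by
            simp only [hq]; push_cast; ring
          rw [e2]
          refine (norm_sub_le _ _).trans ((add_le_add (norm_add_le _ _) le_rfl).trans ?_)
          rw [norm_mul, norm_mul, Complex.norm_real, Complex.norm_real, Real.norm_of_nonneg hq1,
            Real.norm_of_nonneg (by positivity : (0 : ℝ) ≤ (t * θ) ^ 2 / 2), herr]
          have u1 : (t * θ) ^ 2 / 2 * ‖v - (δ : ℂ) * z‖ ≤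
              ‖c‖ * ((t * θ) ^ 2 / 2 * (μ * δ)) := by
            calc _ ≤ (t * θ) ^ 2 / 2 * (μ * δ * ‖c‖) := by
                  refine mul_le_mul_of_nonneg_left (hvar.trans ?_) (by positivity)
                  gcongr
              _ = _ := by ring
          have u2 : ‖w - (z - ((t * θ) ^ 2 / 2 : ℝ) * v)‖ ≤
              ‖c‖ * (12 * (|t * θ| ^ 3 * R) * δ) := by
            refine hx.trans ?_
            calc _ ≤ 6 * (|t * θ| ^ 3 * R) * ‖c‖ * (2 * δ) := by
                  refine mul_le_mul ?_ hdd ?_ (by positivity)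
                  · gcongr
                  · refine ω.nonneg ?_
                    have := star_mul_self_nonneg d; rwa [hd.star_eq] at this
              _ = _ := by ring
          rw [mul_add]
          linarith
        refine h1.trans ?_
        push_cast
        calc q t * ‖z‖ + ‖c‖ * err t ≤ q t * (‖c‖ * (q t ^ j + j * err t)) + ‖c‖ * err t := by
              gcongr
          _ = ‖c‖ * (q t ^ (j + 1) + q t * (j * err t) + err t) := by ring
          _ ≤ ‖c‖ * (q t ^ (j + 1) + (j * err t) + err t) := by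
              refine mul_le_mul_of_nonneg_left (add_le_add (add_le_add le_rfl ?_) le_rfl)
                (norm_nonneg c)
              exact mul_le_of_le_one_left (mul_nonneg (Nat.cast_nonneg _) (herr0 t)) hq2
          _ = _ := by ring
      · set u := S.α k X - X with hu
        set v := S.α k d - d with hv
        have hus : IsSelfAdjoint u := (hX.map (S.α k)).sub hX
        have hvs : IsSelfAdjoint v := (hd.map (S.α k)).sub hd
        have hcross : ω.f (u * v) = 0 := by
          obtain ⟨ω', hω', hf⟩ := S.invariant ω hω k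
          have h1 : ω.f (u * d) = 0 := (hdC u (Finset.mem_insert_of_mem (Finset.mem_insert_of_mem
            (Finset.mem_union_left _ (Finset.mem_union_right _
              (Finset.mem_image_of_mem _ hk)))))).2.1
          have h2 : ω'.f ((S.α k).symm u * d) = 0 := ((hdω ω' hω').1 _
            (Finset.mem_insert_of_mem (Finset.mem_insert_of_mem (Finset.mem_union_right _
              (Finset.mem_image_of_mem _ hk))))).2.1
          rw [hf, map_mul, StarAlgEquiv.apply_symm_apply] at h2
          rw [hv, mul_sub, map_sub, h1, h2, sub_zero]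
        have e : S.α k (X + (θ : ℂ) • d) - (X + (θ : ℂ) • d) = u + (θ : ℂ) • v := by
          rw [map_add, map_smul, hu, hv, smul_sub]; abel
        rw [e, ω.nrm_sq_self (hus.add (IsSelfAdjoint.smul (Complex.conj_ofReal θ) hvs))]
        rw [add_mul, mul_add, mul_add, mul_smul_comm, smul_mul_assoc, smul_mul_smul_comm, map_add,
          map_add, map_add, map_smul, map_smul, map_smul, ω.tracial v u, hcross]
        simp only [smul_eq_mul, mul_zero, add_zero, zero_add, Complex.add_re, ← Complex.ofReal_mul,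
          Complex.re_ofReal_mul]
        rw [← ω.nrm_sq_self hus, ← ω.nrm_sq_self hvs, ← sq]
        push_cast
        have := mul_le_mul_of_nonneg_left (hdK k hk) (sq_nonneg θ)
        linarith [hK k hk]
  obtain ⟨X, hX, hXω⟩ := main m
  refine ⟨X, hX, fun ω hω => ⟨fun c hc => ⟨((hXω ω hω).1 c hc).1, fun t ht => ?_⟩,
    fun k hk => ((hXω ω hω).2 k hk).trans (le_of_eq ?_)⟩⟩
  · refine (((hXω ω hω).1 c hc).2 t ht).trans (mul_le_mul_of_nonneg_left ?_ (norm_nonneg _))
    refine add_le_add ?_ ?_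
    · obtain ⟨h0, -⟩ := hq0 t ht
      refine (pow_le_pow_left₀ h0 (Real.add_one_le_exp (-((t * θ) ^ 2 / 2 * δ)) |>.trans'
        (le_of_eq (by simp only [hq]; ring))) m).trans (le_of_eq ?_)
      rw [← Real.exp_nat_mul]
      congr 1
      calc (m : ℝ) * -((t * θ) ^ 2 / 2 * δ) = -((m : ℝ) * θ ^ 2 * δ * t ^ 2 / 2) := by ring
        _ = _ := by rw [hmθ]
    · have hQt : t ^ 2 ≤ Q ^ 2 := by
        rw [← sq_abs]; exact pow_le_pow_left₀ (abs_nonneg t) (htQ t ht) 2
      have hμ2 : μ * (L * Q ^ 2) ≤ ε := by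
        rw [← le_div_iff₀ (by positivity)]; exact min_le_right _ _
      have hθ3 : θ * (2 * (12 * Q ^ 3 * R * L)) ≤ ε := by
        rw [← le_div_iff₀ (by positivity)]
        exact hθle.trans ((min_le_right _ _).trans (min_le_right _ _))
      have hQ3 : |t| ^ 3 ≤ Q ^ 3 := pow_le_pow_left₀ (abs_nonneg t) (htQ t ht) 3
      calc (m : ℝ) * err t = t ^ 2 * μ * ((m : ℝ) * θ ^ 2 * δ) / 2 +
            12 * |t| ^ 3 * R * θ * ((m : ℝ) * θ ^ 2 * δ) := by
            simp only [herr, abs_mul, abs_of_pos hθ0]; ring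
        _ ≤ Q ^ 2 * μ * L / 2 + 12 * Q ^ 3 * R * θ * L := by
            rw [hmθ]; gcongr
        _ ≤ ε := by linarith
  · calc (m : ℝ) * θ ^ 2 * (ε / L * δ) = (m * θ ^ 2 * δ) * (ε / L) := by ring
      _ = ε := by rw [hmθ]; field_simp

end Vale.Agent.P095
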