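import Vale.Agent.P095.Basic

/-!
# P095: the Powers-Størmer inequality in a trace
-/

open scoped ComplexOrder

namespace Vale.Agent.P095

variable {B : Type*} [CStarAlgebra B] [PartialOrder B] [StarOrderedRing B]

theorem powers_stormer (ω : Tr B) {a₁ a₂ : B} (h₁ : 0 ≤ a₁) (h₂ : 0 ≤ a₂) {L : ℝ}
    (hL : ∀ s : B, ‖s‖ ≤ 1 → (ω.f (s * (a₂ * a₂ - a₁ * a₁))).re ≤ L) :
    ω.nrm (a₂ - a₁) ^ 2 ≤ L := by
  refine le_of_forall_pos_le_add fun ε hε => ?_
  set d := a₂ - a₁ with hd
  have hda : IsSelfAdjoint d := h₂.isSelfAdjoint.sub h₁.isSelfAdjoint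
  set κ := ε / (‖d‖ + 1) with hκ'
  have hκ : 0 < κ := by positivity
  have hden : ∀ t : ℝ, |t| + κ ≠ 0 := fun t => by positivity
  have c0 : Continuous fun t : ℝ => t / (|t| + κ) :=
    continuous_id.div (by fun_prop) hden
  have cp : Continuous fun t : ℝ => max t 0 ^ 2 / (|t| + κ) :=
    Continuous.div (by fun_prop) (by fun_prop) hden
  have cm : Continuous fun t : ℝ => max (-t) 0 ^ 2 / (|t| + κ) :=
    Continuous.div (by fun_prop) (by fun_prop) hden
  set s := cfc (fun t : ℝ => t / (|t| + κ)) d with hs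
  set xp := cfc (fun t : ℝ => max t 0 ^ 2 / (|t| + κ)) d with hxp
  set xm := cfc (fun t : ℝ => max (-t) 0 ^ 2 / (|t| + κ)) d with hxm
  have hs1 : ‖s‖ ≤ 1 := norm_cfc_le zero_le_one fun t _ => by
    rw [Real.norm_eq_abs, abs_div, div_le_one (abs_pos.2 (hden t)),
      abs_of_nonneg (show 0 ≤ |t| + κ by positivity)]
    linarith
  have hsplit : d * s = xp + xm := by
    rw [hs, hxp, hxm, ← cfc_add d _ _ cp.continuousOn cm.continuousOn]
    nth_rw 1 [← cfc_id' ℝ d]
    rw [← cfc_mul _ _ d (by fun_prop) c0.continuousOn]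
    refine cfc_congr fun t _ => ?_
    rcases le_total 0 t with h | h
    · rw [max_eq_left h, max_eq_right (by linarith : -t ≤ 0)]; ring
    · rw [max_eq_right h, max_eq_left (by linarith : (0 : ℝ) ≤ -t)]; ring
  have hcomm : s * d = d * s := ((Commute.refl d).cfc_real (fun t : ℝ => t / (|t| + κ))).eq
  have key : ω.f (s * (a₂ * a₂ - a₁ * a₁)) =
      ω.f (d * xp) + 2 * ω.f (a₁ * xp) + (2 * ω.f (a₂ * xm) - ω.f (d * xm)) := by
    have e : a₂ * a₂ - a₁ * a₁ = a₂ * d + d * a₁ := by rw [hd]; noncomm_ring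
    have e1 : ω.f (s * (a₂ * d)) = ω.f (a₂ * (xp + xm)) := by
      rw [ω.tracial, mul_assoc, hsplit]
    have e2 : ω.f (s * (d * a₁)) = ω.f (a₁ * (xp + xm)) := by
      rw [← mul_assoc, hcomm, hsplit, ω.tracial]
    rw [e, mul_add, map_add, e1, e2, hd]
    simp only [mul_add, sub_mul, map_add, map_sub]
    ring
  have hxp0 : 0 ≤ xp := cfc_nonneg fun t _ => by positivity
  have hxm0 : 0 ≤ xm := cfc_nonneg fun t _ => by positivity
  have h3 : (ω.f (d * xp)).re - (ω.f (d * xm)).re ≥ ω.nrm d ^ 2 - κ * ‖d‖ := by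
    have e : d * xp - d * xm = cfc (fun t : ℝ => |t| ^ 3 / (|t| + κ)) d := by
      rw [← mul_sub, hxp, hxm, ← cfc_sub _ _ d cp.continuousOn cm.continuousOn]
      nth_rw 1 [← cfc_id' ℝ d]
      rw [← cfc_mul (fun t : ℝ => t)
        (fun t : ℝ => max t 0 ^ 2 / (|t| + κ) - max (-t) 0 ^ 2 / (|t| + κ)) d (by fun_prop)
        (cp.sub cm).continuousOn]
      refine cfc_congr fun t _ => ?_
      rcases le_total 0 t with h | h
      · rw [max_eq_left h, max_eq_right (by linarith : -t ≤ 0), abs_of_nonneg h]; ring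
      · rw [max_eq_right h, max_eq_left (by linarith : (0 : ℝ) ≤ -t), abs_of_nonpos h]; ring
    have hle : cfc (fun t : ℝ => t * t - κ * ‖d‖) d ≤
        cfc (fun t : ℝ => |t| ^ 3 / (|t| + κ)) d := by
      refine cfc_mono (fun t ht => ?_) (by fun_prop)
        (Continuous.div (by fun_prop) (by fun_prop) hden).continuousOn
      have htd : |t| ≤ ‖d‖ := by
        have := norm_apply_le_norm_cfc (fun t : ℝ => t) d ht
        rwa [cfc_id' ℝ d, Real.norm_eq_abs] at this
      rw [le_div_iff₀ (by positivity), ← abs_mul_abs_self t]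
      nlinarith [abs_nonneg t, mul_le_mul_of_nonneg_left htd (mul_nonneg hκ.le (abs_nonneg t)),
        mul_nonneg (mul_nonneg hκ.le hκ.le) (norm_nonneg d)]
    have he : cfc (fun t : ℝ => t * t - κ * ‖d‖) d = d * d - algebraMap ℝ B (κ * ‖d‖) := by
      rw [cfc_sub _ _ d (by fun_prop) (by fun_prop), cfc_mul _ _ d (by fun_prop) (by fun_prop),
        cfc_id' ℝ d, cfc_const _ d]
    have h4 := ω.re_mono hle
    rw [← e, he] at h4
    have hal : (ω.f (algebraMap ℝ B (κ * ‖d‖))).re = κ * ‖d‖ := by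
      rw [Algebra.algebraMap_eq_smul_one, ← Complex.coe_smul, map_smul, ω.map_one', smul_eq_mul,
        mul_one, Complex.ofReal_re]
    rw [map_sub, map_sub, Complex.sub_re, Complex.sub_re, hal,
      ← ω.nrm_sq_self hda] at h4
    linarith
  have h5 := hL s hs1
  rw [key] at h5
  simp only [Complex.add_re, Complex.sub_re, Complex.mul_re, Complex.re_ofNat, Complex.im_ofNat,
    zero_mul, sub_zero] at h5
  have := ω.re_mul_nonneg h₁ hxp0
  have := ω.re_mul_nonneg h₂ hxm0
  have : κ * ‖d‖ ≤ ε := by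
    rw [hκ', div_mul_eq_mul_div, div_le_iff₀ (by positivity)]
    nlinarith [norm_nonneg d]
  linarith

end Vale.Agent.P095
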