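import Vale.Agent.P095.Spread
import Vale.Agent.P095.Powers

/-!
# P095: one almost invariant increment of mean zero
-/

open scoped ComplexOrder

namespace Vale.Agent.P095

variable {G B : Type*} [Group G] [CStarAlgebra B] [PartialOrder B] [StarOrderedRing B]
variable {S : Sys G B} {C : Finset B} {F : Finset G} {n : ℕ}

namespace Frame

variable (P : Frame S C F n)

theorem nrm_root (hF : F.Nonempty) {η : ℝ} (hη : 0 < η) {ω : Tr B} (hω : ω ∈ S.Ω) :
    ω.nrm (rootShift η P.avg) ≤ Real.sqrt (n : ℝ)⁻¹ := by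
  rw [← Real.sqrt_sq (ω.nrm_nonneg (rootShift η P.avg))]
  refine Real.sqrt_le_sqrt ?_
  rw [ω.nrm_sq_self rootShift_nonneg.isSelfAdjoint,
    eq_sub_of_add_eq (rootShift_sq hη P.avg_nonneg), map_sub, ω.apply_rsmul, P.avg_trace hF hω,
    Complex.sub_re, Complex.re_ofReal_mul, Complex.ofReal_re]
  nlinarith [ω.nonneg (rootShift_nonneg (η := η) (Y := P.avg)), Real.sqrt_nonneg η]

theorem norm_weight (hn : 0 < n) (hF : F.Nonempty) {η : ℝ} (hη : 0 < η) {σ : ℝ} (hσ : 0 < σ)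
    {c : B} (hc : c ∈ C) {ω : Tr B} (hω : ω ∈ S.Ω) :
    ‖ω.f (c * ((rootShift η P.avg - P.spread η) * (rootShift η P.avg - P.spread η))) -
      ((n : ℝ)⁻¹ : ℝ) * ω.f c‖ ≤ ‖c‖ * (n : ℝ)⁻¹ *
        (σ + η / σ * F.card + Real.sqrt ((n : ℝ)⁻¹ / η) + (n : ℝ)⁻¹ / (4 * η)) := by
  set δ : ℝ := (n : ℝ)⁻¹ with hδ
  have hδ0 : 0 ≤ δ := by positivity
  set sη := Real.sqrt η with hsη
  have hsη0 : 0 < sη := Real.sqrt_pos.2 hη
  have hsq : sη * sη = η := Real.mul_self_sqrt hη.le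
  set a := rootShift η P.avg with ha
  set b := P.spread η
  have ha0 : 0 ≤ a := rootShift_nonneg
  have hb0 : 0 ≤ b := P.spread_nonneg η
  have ha2 : a * a = P.avg - (2 * sη) • a := eq_sub_of_add_eq (rootShift_sq hη P.avg_nonneg)
  have e : c * ((a - b) * (a - b)) =
      c * P.avg - (2 * sη) • (c * a) - (c * a * b + c * b * a) + c * (b * b) := by
    have : (a - b) * (a - b) = a * a - (a * b + b * a) + b * b := by noncomm_ring
    rw [this, ha2, mul_add, mul_sub, mul_sub, mul_add, mul_smul_comm]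
    simp only [mul_assoc]
  rw [e, map_add, map_sub, map_sub, P.avg_weight hF hc hω, ω.apply_rsmul]
  have t1 : ‖((2 * sη : ℝ) : ℂ) * ω.f (c * a)‖ ≤ ‖c‖ * (δ * (σ + η / σ * F.card)) := by
    rw [norm_mul, Complex.norm_real, Real.norm_of_nonneg (by positivity)]
    calc _ ≤ 2 * sη * (‖c‖ * (ω.f a).re) :=
          mul_le_mul_of_nonneg_left (ω.norm_apply_mul_nonneg c ha0) (by positivity)
      _ = ‖c‖ * (2 * sη * (ω.f a).re) := by ring
      _ ≤ _ := mul_le_mul_of_nonneg_left (P.root_trace hF hη hσ hω) (norm_nonneg _)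
  have hab : ω.nrm a * ω.nrm b ≤ Real.sqrt δ * (δ / (2 * sη)) :=
    mul_le_mul (P.nrm_root hF hη hω) (P.nrm_spread hn hη hω) (ω.nrm_nonneg _)
      (Real.sqrt_nonneg _)
  have t2 : ‖ω.f (c * a * b + c * b * a)‖ ≤ ‖c‖ * (δ * Real.sqrt (δ / η)) := by
    rw [map_add]
    refine (norm_add_le _ _).trans ?_
    have u : ∀ x y : B, ‖ω.f (c * x * y)‖ ≤ ‖c‖ * (ω.nrm x * ω.nrm y) := by
      intro x y
      have := ω.norm_apply_star_mul_le (star (c * x)) y
      rw [star_star, ω.nrm_star] at this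
      calc _ ≤ ω.nrm (c * x) * ω.nrm y := this
        _ ≤ ‖c‖ * ω.nrm x * ω.nrm y :=
            mul_le_mul_of_nonneg_right (ω.nrm_mul_left _ _) (ω.nrm_nonneg _)
        _ = _ := by ring
    calc _ ≤ ‖c‖ * (ω.nrm a * ω.nrm b) + ‖c‖ * (ω.nrm a * ω.nrm b) := by
          refine add_le_add (u a b) ?_
          rw [mul_comm (ω.nrm a)]
          exact u b a
      _ ≤ ‖c‖ * (Real.sqrt δ * (δ / (2 * sη))) + ‖c‖ * (Real.sqrt δ * (δ / (2 * sη))) := by
          gcongr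
      _ = _ := by rw [Real.sqrt_div hδ0, ← hsη]; ring
  have t3 : ‖ω.f (c * (b * b))‖ ≤ ‖c‖ * (δ * (δ / (4 * η))) := by
    have hbb : 0 ≤ b * b := by
      have := star_mul_self_nonneg b; rwa [hb0.isSelfAdjoint.star_eq] at this
    refine (ω.norm_apply_mul_nonneg c hbb).trans (mul_le_mul_of_nonneg_left ?_ (norm_nonneg _))
    rw [← ω.nrm_sq_self hb0.isSelfAdjoint]
    calc ω.nrm b ^ 2 ≤ (δ / (2 * sη)) ^ 2 :=
          pow_le_pow_left₀ (ω.nrm_nonneg _) (P.nrm_spread hn hη hω) 2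
      _ = _ := by rw [div_pow, mul_pow, sq sη, hsq]; ring
  set p := ((2 * sη : ℝ) : ℂ) * ω.f (c * a)
  set q := ω.f (c * a * b + c * b * a)
  set r := ω.f (c * (b * b))
  calc ‖(δ : ℂ) * ω.f c - p - q + r - (δ : ℂ) * ω.f c‖ = ‖r - p - q‖ := by congr 1; ring
    _ ≤ ‖r‖ + ‖p‖ + ‖q‖ := (norm_sub_le _ _).trans (by linarith [norm_sub_le r p])
    _ ≤ _ := by nlinarith

theorem nrm_sub_root [DecidableEq G] {η : ℝ} (hη : 0 < η) (k : G) {ω : Tr B} (hω : ω ∈ S.Ω) :
    ω.nrm (S.α k (rootShift η P.avg) - rootShift η P.avg) ^ 2 ≤ (n : ℝ)⁻¹ *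
      (((F.image (k * ·)) \ F).card + (F \ (F.image (k * ·))).card) / F.card := by
  set δ : ℝ := (n : ℝ)⁻¹ with hδ
  set sη := Real.sqrt η
  set a := rootShift η P.avg with ha
  have ha0 : 0 ≤ a := rootShift_nonneg
  have hsq : sη * sη = η := Real.mul_self_sqrt hη.le
  have h1 : (0 : B) ≤ algebraMap ℝ B sη := algebraMap_nonneg B (Real.sqrt_nonneg _)
  suffices h : ∀ s : B, ‖s‖ ≤ 1 →
      (ω.f (s * ((S.α k a + algebraMap ℝ B sη) * (S.α k a + algebraMap ℝ B sη) -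
        (a + algebraMap ℝ B sη) * (a + algebraMap ℝ B sη)))).re ≤
      δ * (((F.image (k * ·)) \ F).card + (F \ (F.image (k * ·))).card) / F.card by
    simpa using powers_stormer ω (add_nonneg ha0 h1)
      (add_nonneg (Sys.α_nonneg (S := S) k ha0) h1) h
  intro s hs
  have e1 : ∀ x : B, (x + algebraMap ℝ B sη) * (x + algebraMap ℝ B sη) =
      (x * x + (2 * sη) • x) + algebraMap ℝ B η := by
    intro x
    rw [add_mul, mul_add, mul_add, ← Algebra.commutes sη x, ← map_mul, hsq, two_mul,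
      add_smul, Algebra.smul_def]
    abel
  have hαa : S.α k ((2 * sη) • a) = (2 * sη) • S.α k a := Sys.α_rsmul k _ a
  have e2 : a * a + (2 * sη) • a = P.avg := rootShift_sq hη P.avg_nonneg
  have e3 : S.α k a * S.α k a + (2 * sη) • S.α k a = S.α k P.avg := by
    rw [← map_mul, ← hαa, ← map_add, e2]
  rw [e1, e1, e2, e3, add_sub_add_right_eq_sub]
  have e4 : S.α k P.avg - P.avg = (F.card : ℝ)⁻¹ •
      (∑ g ∈ F.image (k * ·) \ F, P.eg g - ∑ g ∈ F \ F.image (k * ·), P.eg g) := by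
    rw [Finset.sum_sdiff_sub_sum_sdiff, Finset.sum_image fun x _ y _ h => mul_left_cancel h,
      avg, Sys.α_rsmul, map_sum, ← smul_sub]
    simp only [P.eg_map]
  rw [e4, mul_smul_comm, ω.apply_rsmul, Complex.re_ofReal_mul, mul_sub, map_sub,
    Finset.mul_sum, Finset.mul_sum, map_sum, map_sum, Complex.sub_re, Complex.re_sum,
    Complex.re_sum]
  have hb1 : ∀ g, |(ω.f (s * P.eg g)).re| ≤ δ := fun g => by
    refine (Complex.abs_re_le_norm _).trans
      ((ω.norm_apply_mul_nonneg s (P.eg_nonneg g)).trans ?_)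
    rw [P.eg_trace g ω hω, Complex.ofReal_re, ← hδ]
    exact mul_le_of_le_one_left (by positivity) hs
  calc _ ≤ (F.card : ℝ)⁻¹ * (∑ _g ∈ F.image (k * ·) \ F, δ +
          ∑ _g ∈ F \ F.image (k * ·), δ) := by
        refine mul_le_mul_of_nonneg_left ?_ (by positivity)
        rw [sub_eq_add_neg, ← Finset.sum_neg_distrib]
        exact add_le_add (Finset.sum_le_sum fun g _ => (abs_le.1 (hb1 g)).2)
          (Finset.sum_le_sum fun g _ => neg_le.1 (abs_le.1 (hb1 g)).1)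
    _ = _ := by simp only [Finset.sum_const, nsmul_eq_mul]; ring

end Frame

/-- Almost invariant self-adjoint elements of mean zero against `C` with variance `δ`. -/
theorem exists_step [DecidableEq G] (hG : Foelner G) (S : Sys G B) (K : Finset G) {ν μ : ℝ}
    (hν : 0 < ν) (hμ : 0 < μ) :
    ∃ δ R : ℝ, 0 < δ ∧ δ ≤ 1 ∧ 0 < R ∧ ∀ C : Finset B, ∃ d : B, IsSelfAdjoint d ∧ ‖d‖ ≤ R ∧
      ∀ ω ∈ S.Ω, (∀ c ∈ C, Commute (ω.rep c) (ω.rep d) ∧ ω.f (c * d) = 0 ∧
          ‖ω.f (c * (d * d)) - (δ : ℂ) * ω.f c‖ ≤ μ * δ * ‖c‖) ∧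
        ∀ k ∈ K, ω.nrm (S.α k d - d) ^ 2 ≤ ν * δ := by
  classical
  obtain ⟨F, hF, hFK⟩ := hG K (ν / 4) (by positivity)
  set N : ℝ := (F.card : ℝ)
  have hN : 0 < N := Nat.cast_pos.2 hF.card_pos
  set σ := μ / 4 with hσ'
  have hσ : 0 < σ := by positivity
  set η := μ * σ / (4 * N) with hη'
  have hη : 0 < η := by positivity
  set m := min (min ((μ / 4) ^ 2) μ) (ν / 4) * η with hm'
  have hm : 0 < m := by positivity
  obtain ⟨n, hn⟩ := exists_nat_gt m⁻¹
  have hn0 : 0 < n := by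
    rcases Nat.eq_zero_or_pos n with rfl | h
    · exact absurd hn (by simp [hm.le])
    · exact h
  set δ : ℝ := (n : ℝ)⁻¹ with hδ
  have hδ0 : 0 < δ := by positivity
  have hδm : δ ≤ m := by
    rw [hδ, inv_le_comm₀ (by positivity) hm]; exact hn.le
  have hδη : δ / η ≤ min (min ((μ / 4) ^ 2) μ) (ν / 4) := by rw [div_le_iff₀ hη]; exact hδm
  have h1 : Real.sqrt (δ / η) ≤ μ / 4 := by
    rw [← Real.sqrt_sq (by positivity : 0 ≤ μ / 4)]
    exact Real.sqrt_le_sqrt (hδη.trans ((min_le_left _ _).trans (min_le_left _ _)))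
  have h2 : δ / η ≤ μ := hδη.trans ((min_le_left _ _).trans (min_le_right _ _))
  have h3 : δ / η ≤ ν / 4 := hδη.trans (min_le_right _ _)
  have h4 : η / σ * N = μ / 4 := by rw [hη']; field_simp
  refine ⟨δ, (Real.sqrt η)⁻¹, hδ0, ?_, inv_pos.2 (Real.sqrt_pos.2 hη), fun C => ?_⟩
  · rw [hδ]; exact inv_le_one_of_one_le₀ (by exact_mod_cast hn0)
  obtain ⟨P⟩ := exists_frame S F n hn0 C
  refine ⟨rootShift η P.avg - P.spread η,
    rootShift_nonneg.isSelfAdjoint.sub (P.spread_nonneg η).isSelfAdjoint, ?_,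
    fun ω hω => ⟨fun c hc => ⟨?_, ?_, ?_⟩, fun k hk => ?_⟩⟩
  · calc _ ≤ ‖rootShift η P.avg‖ + ‖P.spread η‖ := norm_sub_le _ _
      _ ≤ (2 * Real.sqrt η)⁻¹ + (2 * Real.sqrt η)⁻¹ := by
          refine add_le_add ?_ (P.norm_spread hη)
          rw [rootShift_eq hη P.avg_nonneg]
          exact (norm_mul_le _ _).trans ((mul_le_mul P.norm_avg (norm_rootInv hη) (norm_nonneg _)
            zero_le_one).trans_eq (one_mul _))
      _ = _ := by ring
  · rw [map_sub]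
    exact (commute_rep_cfc ω P.avg_nonneg.isSelfAdjoint c _ (by fun_prop)
      (P.avg_comm hc hω)).sub_right (P.spread_comm hη hc hω)
  · rw [mul_sub, map_sub, P.spread_weight hn0 hη hc hω, sub_self]
  · refine (P.norm_weight hn0 hF hη hσ hc hω).trans ?_
    rw [h4, ← hδ]
    have h5 : δ / (4 * η) ≤ μ / 4 := by
      calc δ / (4 * η) = δ / η / 4 := by ring
        _ ≤ μ / 4 := by linarith
    calc ‖c‖ * δ * (σ + μ / 4 + Real.sqrt (δ / η) + δ / (4 * η)) ≤ ‖c‖ * δ * μ :=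
          mul_le_mul_of_nonneg_left (by rw [hσ']; linarith) (by positivity)
      _ = _ := by ring
  · set a := rootShift η P.avg
    set b := P.spread η
    obtain ⟨ω', hω', hf⟩ := S.invariant ω hω k
    have hb' : ω.nrm (S.α k b) ≤ δ / (2 * Real.sqrt η) := by
      rw [Sys.nrm_α hf]; exact P.nrm_spread hn0 hη hω'
    have tri : ω.nrm (S.α k (a - b) - (a - b)) ≤
        ω.nrm (S.α k a - a) + δ / Real.sqrt η := by
      rw [map_sub, show S.α k a - S.α k b - (a - b) = (S.α k a - a) + (b - S.α k b) by abel]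
      refine (ω.nrm_add _ _).trans (add_le_add le_rfl ?_)
      refine (ω.nrm_sub _ _).trans ((add_le_add (P.nrm_spread hn0 hη hω) hb').trans_eq ?_)
      rw [← hδ]; ring
    have h6 := P.nrm_sub_root hη k hω
    have h7 : (((F.image (k * ·)) \ F).card + (F \ (F.image (k * ·))).card : ℝ) / N ≤ ν / 4 := by
      rw [div_le_iff₀ hN]; exact hFK k hk
    have h8 : δ / Real.sqrt η * (δ / Real.sqrt η) ≤ δ * (ν / 4) := by
      rw [div_mul_div_comm, Real.mul_self_sqrt hη.le, mul_div_assoc]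
      exact mul_le_mul_of_nonneg_left h3 hδ0.le
    rw [mul_div_assoc] at h6
    calc _ ≤ (ω.nrm (S.α k a - a) + δ / Real.sqrt η) ^ 2 :=
          pow_le_pow_left₀ (ω.nrm_nonneg _) tri 2
      _ ≤ 2 * ω.nrm (S.α k a - a) ^ 2 + 2 * (δ / Real.sqrt η * (δ / Real.sqrt η)) := by
          nlinarith [sq_nonneg (ω.nrm (S.α k a - a) - δ / Real.sqrt η)]
      _ ≤ _ := by nlinarith [mul_le_mul_of_nonneg_left h7 hδ0.le]

end Vale.Agent.P095
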