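import Mathlib

/-!
# P095: periodic partitions of unity and trigonometric approximation
-/

open Complex

namespace Vale.Agent.P095

/-- The weight of the integer `j` modulo `n` at `m`. -/
noncomputable def residue (n : ℕ) (j m : ℤ) : ℝ := if (n : ℤ) ∣ m - j then 1 else 0

/-- The saw at the start of each unit interval. -/
noncomputable def saw (M : ℕ) (y : ℝ) : ℝ := min 1 (M * Int.fract y)

/-- A periodic partition of unity with short transition intervals. -/
noncomputable def part (n M : ℕ) (j : ℤ) (x : ℝ) : ℝ :=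
  (1 - saw M (n * x)) * residue n j ⌊(n : ℝ) * x⌋ +
    saw M (n * x) * residue n j (⌊(n : ℝ) * x⌋ + 1)

/-- The bump `r (1 - r)`. -/
noncomputable def bump (n M : ℕ) (x : ℝ) : ℝ := saw M (n * x) * (1 - saw M (n * x))

theorem saw_mem (M : ℕ) (y : ℝ) : 0 ≤ saw M y ∧ saw M y ≤ 1 :=
  ⟨le_min zero_le_one (mul_nonneg (Nat.cast_nonneg _) (Int.fract_nonneg _)), min_le_left _ _⟩

theorem residue_mem (n : ℕ) (j m : ℤ) : residue n j m = 0 ∨ residue n j m = 1 := by
  unfold residue; split_ifs <;> simp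

theorem part_mem (n M : ℕ) (j : ℤ) (x : ℝ) : 0 ≤ part n M j x ∧ part n M j x ≤ 1 := by
  obtain ⟨h0, h1⟩ := saw_mem M (n * x)
  unfold part
  rcases residue_mem n j ⌊(n : ℝ) * x⌋ with a | a <;>
    rcases residue_mem n j (⌊(n : ℝ) * x⌋ + 1) with b | b <;>
      rw [a, b] <;> constructor <;> nlinarith

theorem part_sub_sq_le (n M : ℕ) (j : ℤ) (x : ℝ) :
    part n M j x - part n M j x ^ 2 ≤ bump n M x := by
  obtain ⟨h0, h1⟩ := saw_mem M (n * x)
  unfold part bump
  rcases residue_mem n j ⌊(n : ℝ) * x⌋ with a | a <;>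
    rcases residue_mem n j (⌊(n : ℝ) * x⌋ + 1) with b | b <;>
      rw [a, b] <;> nlinarith

theorem sum_residue {n : ℕ} (hn : 0 < n) (m : ℤ) : ∑ i : Fin n, residue n (i : ℕ) m = 1 := by
  have h0 : 0 ≤ m % (n : ℤ) := Int.emod_nonneg _ (by omega)
  have h1 : m % (n : ℤ) < n := Int.emod_lt_of_pos _ (by omega)
  rw [Finset.sum_eq_single (⟨(m % (n : ℤ)).toNat, by omega⟩ : Fin n)]
  · unfold residue
    rw [if_pos]
    simp only [Int.toNat_of_nonneg h0]
    exact Int.dvd_self_sub_emod
  · intro i _ hi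
    unfold residue
    rw [if_neg]
    intro h
    apply hi
    have : m % (n : ℤ) = ((i : ℕ) : ℤ) % n := Int.emod_eq_emod_iff_emod_sub_eq_zero.2
      (Int.emod_eq_zero_of_dvd h)
    rw [Int.emod_eq_of_lt (a := ((i : ℕ) : ℤ)) (by omega) (by omega)] at this
    apply Fin.ext
    simp only
    omega
  · simp

theorem sum_part {n : ℕ} (hn : 0 < n) (M : ℕ) (x : ℝ) :
    ∑ i : Fin n, part n M (i : ℕ) x = 1 := by
  unfold part
  rw [Finset.sum_add_distrib, ← Finset.mul_sum, ← Finset.mul_sum, sum_residue hn, sum_residue hn]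
  ring

theorem part_shift {n : ℕ} (hn : 0 < n) (M : ℕ) (j : ℤ) (x : ℝ) :
    part n M j x = part n M 0 (x - j / n) := by
  have e : (n : ℝ) * (x - j / n) = n * x - j := by field_simp
  unfold part residue saw
  rw [e, Int.floor_sub_intCast, Int.fract_sub_intCast]
  simp only [sub_zero]
  congr 2 <;> (congr 2; ring)

theorem residue_add_self (n : ℕ) (j m : ℤ) : residue n j (m + n) = residue n j m := by
  unfold residue
  simp only [show m + (n : ℤ) - j = (m - j) + n by ring, dvd_add_self_right]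

theorem part_periodic (n M : ℕ) (j : ℤ) : Function.Periodic (part n M j) 1 := by
  intro x
  have e : (n : ℝ) * (x + 1) = n * x + ((n : ℤ) : ℝ) := by push_cast; ring
  unfold part saw
  rw [e, Int.floor_add_intCast, Int.fract_add_intCast, residue_add_self,
    show ⌊(n : ℝ) * x⌋ + (n : ℤ) + 1 = (⌊(n : ℝ) * x⌋ + 1) + n by ring, residue_add_self]

theorem bump_periodic (n M : ℕ) : Function.Periodic (bump n M) 1 := by
  intro x
  have e : (n : ℝ) * (x + 1) = n * x + ((n : ℤ) : ℝ) := by push_cast; ring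
  unfold bump saw
  rw [e, Int.fract_add_intCast]

theorem continuous_interp {M : ℕ} (hM : 0 < M) (a : ℤ → ℝ) :
    Continuous fun y => (1 - saw M y) * a ⌊y⌋ + saw M y * a (⌊y⌋ + 1) := by
  have hlf : LocallyFinite fun m : ℤ => Set.Icc (m : ℝ) (m + 1) := by
    intro y
    refine ⟨Set.Ioo (y - 1) (y + 1), Ioo_mem_nhds (by linarith) (by linarith),
      (Set.finite_Icc (⌊y⌋ - 3) (⌊y⌋ + 3)).subset ?_⟩
    rintro m ⟨z, ⟨h1, h2⟩, h3, h4⟩
    simp only [Set.mem_Icc] at *
    have := Int.floor_le y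
    have := Int.lt_floor_add_one y
    constructor
    · have : ((⌊y⌋ - 3 : ℤ) : ℝ) ≤ m := by push_cast; linarith
      exact_mod_cast this
    · have : (m : ℝ) ≤ ((⌊y⌋ + 3 : ℤ) : ℝ) := by push_cast; linarith
      exact_mod_cast this
  refine hlf.continuous ?_ (fun _ => isClosed_Icc) fun m => ?_
  · rw [Set.iUnion_eq_univ_iff]
    exact fun y => ⟨⌊y⌋, Int.floor_le y, (Int.lt_floor_add_one y).le⟩
  · refine (show ContinuousOn (fun y : ℝ => (1 - min 1 ((M : ℝ) * (y - m))) * a m +
      min 1 ((M : ℝ) * (y - m)) * a (m + 1)) (Set.Icc (m : ℝ) (m + 1)) by fun_prop).congr ?_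
    intro y ⟨hy1, hy2⟩
    rcases hy2.eq_or_lt with h | h
    · subst h
      have hM1 : (1 : ℝ) ≤ M := by exact_mod_cast hM
      simp [saw, min_eq_left hM1]
    · have hfl : ⌊y⌋ = m := Int.floor_eq_iff.2 ⟨hy1, h⟩
      simp only [saw, Int.fract, hfl]

theorem continuous_part {n M : ℕ} (hM : 0 < M) (j : ℤ) : Continuous (part n M j) :=
  (continuous_interp hM (residue n j)).comp (continuous_const.mul continuous_id)

theorem continuous_bump {n M : ℕ} (hM : 0 < M) : Continuous (bump n M) := by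
  have hP := continuous_interp hM (fun m => if Even m then (0 : ℝ) else 1)
  have h : Continuous fun y : ℝ => saw M y * (1 - saw M y) := by
    refine (hP.fun_sub (hP.fun_mul hP)).congr fun y => ?_
    have h1 : Even (⌊y⌋ + 1) ↔ ¬Even ⌊y⌋ := Int.even_add_one
    by_cases he : Even ⌊y⌋ <;> simp only [he, h1, not_true, not_false_iff, if_true, if_false] <;>
      ring
  exact h.comp (continuous_const.mul continuous_id)

theorem sum_bump_le {n M : ℕ} (hn : 0 < n) (hM : 0 < M) (x : ℝ) :
    ∑ l ∈ Finset.range M, bump n M (x - l / (n * M)) ≤ 1 := by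
  calc _ ≤ ∑ l ∈ Finset.range M,
        (if (l : ℤ) = ⌊(M : ℝ) * (n * x)⌋ % M then (1 : ℝ) else 0) :=
        Finset.sum_le_sum fun l hl => ?_
    _ ≤ 1 := ?_
  · obtain ⟨h0, h1⟩ := saw_mem M (n * (x - l / (n * M)))
    split_ifs with h
    · unfold bump; nlinarith
    · refine le_of_eq (mul_eq_zero.2 (Or.inr (sub_eq_zero.2 (Eq.symm (min_eq_left ?_)))))
      by_contra hc
      refine h ?_
      push_neg at hc
      set z := (n : ℝ) * (x - l / (n * M)) with hz
      have e : ⌊(M : ℝ) * (n * x)⌋ = (M : ℤ) * ⌊z⌋ + l := by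
        have e1 : (M : ℝ) * z = M * (n * x) - l := by rw [hz]; field_simp
        have e2 : (M : ℝ) * z = M * (⌊z⌋ : ℝ) + M * Int.fract z := by
          rw [← mul_add, Int.floor_add_fract]
        rw [Int.floor_eq_iff]
        have : 0 ≤ (M : ℝ) * Int.fract z := mul_nonneg (Nat.cast_nonneg _) (Int.fract_nonneg _)
        push_cast
        constructor <;> linarith
      rw [e, Int.mul_add_emod_self_left, Int.emod_eq_of_lt (by positivity)
        (by exact_mod_cast Finset.mem_range.1 hl)]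
  · rw [Finset.sum_boole]
    exact_mod_cast Finset.card_le_one.2 fun a ha b hb => by
      simp only [Finset.mem_filter] at ha hb
      omega

/-- Trigonometric approximation of a continuous periodic function. -/
theorem exists_trig {g : ℝ → ℂ} (hg : Continuous g) (hp : Function.Periodic g 1) {ε : ℝ}
    (hε : 0 < ε) : ∃ (s : Finset ℤ) (a : ℤ → ℂ),
      ∀ x : ℝ, ‖g x - ∑ k ∈ s, a k * Complex.exp (I * (2 * Real.pi * k : ℝ) * x)‖ ≤ ε := by
  haveI : Fact ((0 : ℝ) < 1) := ⟨one_pos⟩
  let G : C(AddCircle (1 : ℝ), ℂ) := ⟨hp.lift, continuous_quot_lift _ hg⟩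
  have h : G ∈ (Submodule.span ℂ (Set.range (@fourier 1))).topologicalClosure := by
    rw [span_fourier_closure_eq_top]; trivial
  rw [← SetLike.mem_coe, Submodule.topologicalClosure_coe, Metric.mem_closure_iff] at h
  obtain ⟨P, hP, hd⟩ := h ε hε
  obtain ⟨c, hc⟩ := (Finsupp.mem_span_range_iff_exists_finsupp).1 hP
  refine ⟨c.support, c, fun x => ?_⟩
  have h2 := (ContinuousMap.norm_coe_le_norm (G - P) (x : AddCircle (1 : ℝ))).trans
    (le_of_lt (by rwa [← dist_eq_norm]))
  refine le_trans (le_of_eq ?_) h2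
  rw [ContinuousMap.sub_apply, ← hc, Finsupp.sum, ContinuousMap.sum_apply]
  congr 2
  refine Finset.sum_congr rfl fun k _ => ?_
  rw [ContinuousMap.smul_apply, smul_eq_mul, fourier_coe_apply]
  congr 2
  push_cast; ring

end Vale.Agent.P095
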