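import Vale.Agent.P095.Gaussian
import Vale.Agent.P095.Periodic

/-!
# P095: invariant partitions dividing every trace equally
-/

open scoped ComplexOrder
open Complex

namespace Vale.Agent.P095

variable {G B : Type*} [Group G] [CStarAlgebra B] [PartialOrder B] [StarOrderedRing B]

theorem norm_one_le_one : ‖(1 : B)‖ ≤ 1 := by
  rcases subsingleton_or_nontrivial B with hB | hB
  · simp [Subsingleton.elim (1 : B) 0]
  · exact norm_one.le

theorem wave_eq_exp (k : ℤ) (x : ℝ) :
    wave (2 * Real.pi * k) x = Complex.exp (I * (2 * Real.pi * k : ℝ) * x) := rfl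

theorem continuous_shift {h : ℝ → ℂ} (hh : Continuous h) (u : ℝ) :
    Continuous fun x => h (x - u) := by fun_prop

theorem continuous_trig (s : Finset ℤ) (a : ℤ → ℂ) (u : ℝ) :
    Continuous fun x => ∑ k ∈ s, a k * wave (2 * Real.pi * k) (x - u) :=
  continuous_finsetSum _ fun _ _ => continuous_const.mul (continuous_shift (continuous_wave _) u)

theorem fc_comp_shift {X : B} (hX : IsSelfAdjoint X) (s : Finset ℤ) (a : ℤ → ℂ) (u : ℝ) :
    fc (fun x => ∑ k ∈ s, a k * wave (2 * Real.pi * k) (x - u)) X =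
      ∑ k ∈ s, (a k * wave (2 * Real.pi * k) (-u)) • fc (wave (2 * Real.pi * k)) X := by
  rw [fc_sum s (fun k x => a k * wave (2 * Real.pi * k) (x - u))
    fun k _ => continuous_const.mul (continuous_shift (continuous_wave _) u)]
  refine Finset.sum_congr rfl fun k _ => ?_
  rw [← fc_const_mul _ (continuous_wave _)]
  congr 1
  funext x
  simp only [wave]
  rw [mul_assoc (a k), ← Complex.exp_add]
  congr 2
  push_cast; ring

open Classical in
theorem exists_partition (hG : Foelner G) (S : Sys G B) (C : Finset B) (K : Finset G) (n : ℕ)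
    (hn : 0 < n) {ε : ℝ} (hε : 0 < ε) :
    ∃ p : Fin n → B, (∀ i, 0 ≤ p i) ∧ ∑ i, p i = 1 ∧ ∀ ω ∈ S.Ω,
      (∀ i, ω.nrm (p i * p i - p i) ^ 2 ≤ ε) ∧
      (∀ i j, i ≠ j → ω.nrm (p i * p j) ^ 2 ≤ ε) ∧
      (∀ c ∈ C, ∀ i, Commute (ω.rep c) (ω.rep (p i)) ∧ ‖ω.f (c * p i) - ω.f c / n‖ ≤ ε) ∧
      ∀ k ∈ K, ∀ i, ω.nrm (S.α k (p i) - p i) ≤ ε := by
  set D := ∑ c ∈ C, ‖c‖ + 1 with hD
  have hD1 : 1 ≤ D := le_add_of_nonneg_left (Finset.sum_nonneg fun _ _ => norm_nonneg _)
  have hcD : ∀ c ∈ insert (1 : B) C, ‖c‖ ≤ D := by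
    intro c hc
    rcases Finset.mem_insert.1 hc with rfl | hc
    · exact norm_one_le_one.trans hD1
    · exact (Finset.single_le_sum (fun s _ => norm_nonneg s) hc).trans
        (le_add_of_nonneg_right zero_le_one)
  obtain ⟨M, hM⟩ := exists_nat_gt (2 / ε)
  have hM0' : (0 : ℝ) < M := lt_trans (by positivity) hM
  have hM0 : 0 < M := Nat.cast_pos.1 hM0'
  have hM2 : 1 / (M : ℝ) ≤ ε / 2 := by
    rw [div_lt_iff₀ hε] at hM
    rw [div_le_iff₀ hM0']; linarith
  set η := ε / (12 * D) with hη'
  have hη : 0 < η := by positivity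
  set g : Bool → ℝ → ℂ := fun b x => ((bif b then part n M 0 x else bump n M x : ℝ) : ℂ) with hg
  have hgc : ∀ b, Continuous (g b) := fun b => by
    cases b
    · exact continuous_ofReal.comp (continuous_bump hM0)
    · exact continuous_ofReal.comp (continuous_part hM0 0)
  have hgp : ∀ b, Function.Periodic (g b) 1 := fun b x => by
    cases b
    · simp only [hg, cond_false]; rw [bump_periodic n M x]
    · simp only [hg, cond_true]; rw [part_periodic n M 0 x]
  choose s a hsa using fun b => exists_trig (hgc b) (hgp b) hη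
  set Λ := ∑ b, ∑ k ∈ s b, ‖a b k‖ * (1 + |2 * Real.pi * k|) + 1 with hΛ
  have hΛ1 : 1 ≤ Λ := le_add_of_nonneg_left (by positivity)
  have hΛb : ∀ b, ∑ k ∈ s b, ‖a b k‖ * (1 + |2 * Real.pi * k|) ≤ Λ := fun b =>
    (Finset.single_le_sum (f := fun b => ∑ k ∈ s b, ‖a b k‖ * (1 + |2 * Real.pi * k|))
      (fun _ _ => by positivity) (Finset.mem_univ b)).trans (le_add_of_nonneg_right zero_le_one)
  set η' := ε / (16 * D * Λ) with hη''
  have hη'0 : 0 < η' := by positivity
  set L := 1 / η' with hL'
  have hL : 0 < L := by positivity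
  obtain ⟨X, hX, hXω⟩ := exists_gaussian hG S (insert 1 C) K
    ((s false ∪ s true).image fun k : ℤ => (2 * Real.pi * k : ℝ)) hL
    (ε := min η' (η' ^ 2)) (lt_min hη'0 (by positivity))
  -- Fourier coefficients other than the constant one are negligible
  have hdecay : ∀ ω ∈ S.Ω, ∀ c ∈ insert (1 : B) C, ∀ b, ∀ k ∈ s b, k ≠ 0 →
      ‖ω.f (c * fc (wave (2 * Real.pi * k)) X)‖ ≤ D * (2 * η') := by
    intro ω hω c hc b k hk hk0
    have hmem : (2 * Real.pi * k : ℝ) ∈ (s false ∪ s true).image fun k : ℤ => (2 * Real.pi * k : ℝ) :=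
      Finset.mem_image_of_mem _ (by cases b <;> simp [hk])
    refine (((hXω ω hω).1 c hc).2 _ hmem).trans (mul_le_mul (hcD c hc) ?_ (by positivity)
      (by positivity))
    have h1 : 2 ≤ (2 * Real.pi * k : ℝ) ^ 2 := by
      have : (1 : ℝ) ≤ (k : ℝ) ^ 2 := by
        have : (1 : ℤ) ≤ k ^ 2 := by nlinarith [Int.one_le_abs hk0, sq_abs k]
        exact_mod_cast this
      nlinarith [Real.two_le_pi, mul_le_mul_of_nonneg_left this (sq_nonneg Real.pi),
        mul_le_mul Real.two_le_pi Real.two_le_pi zero_le_two Real.pi_pos.le]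
    have h2 : Real.exp (-(L * (2 * Real.pi * k) ^ 2 / 2)) ≤ η' := by
      calc _ ≤ Real.exp (-L) := Real.exp_le_exp.2 (by nlinarith)
        _ ≤ 1 / (L + 1) := by
          rw [Real.exp_neg, one_div]
          exact inv_anti₀ (by positivity) (Real.add_one_le_exp L)
        _ ≤ 1 / L := one_div_le_one_div_of_le hL (by linarith)
        _ = η' := by rw [hL', one_div_one_div]
    linarith [min_le_left η' (η' ^ 2)]
  -- hence translating a function hardly changes the trace
  have hrot : ∀ ω ∈ S.Ω, ∀ c ∈ insert (1 : B) C, ∀ b, ∀ u : ℝ,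
      ‖ω.f (c * fc (fun x => g b (x - u)) X) - ω.f (c * fc (g b) X)‖ ≤ ε / 2 := by
    intro ω hω c hc b u
    set P : ℝ → ℝ → ℂ := fun v x => ∑ k ∈ s b, a b k * wave (2 * Real.pi * k) (x - v) with hP
    have cP : ∀ v, Continuous (P v) := fun v => continuous_trig (s b) (a b) v
    have happ : ∀ v, ‖ω.f (c * fc (fun x => g b (x - v)) X) - ω.f (c * fc (P v) X)‖ ≤ D * η := by
      intro v
      rw [← map_sub, ← mul_sub, ← fc_sub (continuous_shift (hgc b) v) (cP v)]
      refine ((ω.norm_apply_le _).trans (ω.nrm_le_norm _)).trans ((norm_mul_le _ _).trans ?_)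
      exact mul_le_mul (hcD c hc) (norm_fc_le hX hη.le fun x _ => hsa b (x - v)) (norm_nonneg _)
        (by positivity)
    have hd : ‖ω.f (c * fc (P u) X) - ω.f (c * fc (P 0) X)‖ ≤ 4 * D * η' * Λ := by
      simp only [hP, fc_comp_shift hX]
      rw [← map_sub, ← mul_sub, ← Finset.sum_sub_distrib, Finset.mul_sum, map_sum]
      refine (norm_sum_le _ _).trans ((Finset.sum_le_sum (g := fun k =>
        4 * D * η' * (‖a b k‖ * (1 + |2 * Real.pi * k|))) fun k hk => ?_).trans ?_)
      · rw [← sub_smul, mul_smul_comm, map_smul, smul_eq_mul, norm_mul, ← mul_sub, norm_mul]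
        rcases eq_or_ne k 0 with rfl | hk0
        · simp [wave]; positivity
        calc _ ≤ ‖a b k‖ * 2 * (D * (2 * η')) := by
              gcongr
              · refine (norm_sub_le _ _).trans ?_
                rw [norm_wave, norm_wave]; norm_num
              · exact hdecay ω hω c hc b k hk hk0
          _ = 4 * D * η' * (‖a b k‖ * 1) := by ring
          _ ≤ _ := by gcongr; exact le_add_of_nonneg_right (abs_nonneg _)
      · rw [← Finset.mul_sum]
        exact mul_le_mul_of_nonneg_left (hΛb b) (by positivity)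
    have h0 : ‖ω.f (c * fc (g b) X) - ω.f (c * fc (P 0) X)‖ ≤ D * η := by
      simpa using happ 0
    calc _ = ‖(ω.f (c * fc (fun x => g b (x - u)) X) - ω.f (c * fc (P u) X)) +
            (ω.f (c * fc (P u) X) - ω.f (c * fc (P 0) X)) -
            (ω.f (c * fc (g b) X) - ω.f (c * fc (P 0) X))‖ := by congr 1; ring
      _ ≤ D * η + 4 * D * η' * Λ + D * η :=
          (norm_sub_le _ _).trans (add_le_add ((norm_add_le _ _).trans
            (add_le_add (happ u) hd)) h0)
      _ = ε / 12 + ε / 4 + ε / 12 := by rw [hη', hη'']; field_simp; ring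
      _ ≤ ε / 2 := by linarith
  set p : Fin n → B := fun i => fc (fun x => ((part n M (i : ℕ) x : ℝ) : ℂ)) X with hp
  have cpart : ∀ j, Continuous fun x => ((part n M j x : ℝ) : ℂ) :=
    fun j => continuous_ofReal.comp (continuous_part hM0 j)
  have cbump : Continuous fun x => ((bump n M x : ℝ) : ℂ) :=
    continuous_ofReal.comp (continuous_bump hM0)
  have hpshift : ∀ i : Fin n, p i = fc (fun x => g true (x - ((i : ℕ) : ℝ) / n)) X := fun i => by
    simp only [hp, hg, cond_true]
    congr 1; funext x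
    rw [part_shift hn M (i : ℕ) x]; simp
  -- elements below the bump are small
  have hsmall : ∀ ω ∈ S.Ω, ∀ f : ℝ → ℝ, Continuous f →
      (∀ x, 0 ≤ f x ∧ f x ≤ 1 ∧ f x ≤ bump n M x) → ω.nrm (cfc f X) ^ 2 ≤ ε := by
    intro ω hω f cf hf
    rw [ω.nrm_sq_self (cfc_predicate _ X), ← cfc_mul _ _ X (by fun_prop) (by fun_prop)]
    refine (ω.re_mono (cfc_mono (g := bump n M) (fun x _ => ?_) (by fun_prop)
      (continuous_bump hM0).continuousOn)).trans ?_
    · obtain ⟨h0, h1, h2⟩ := hf x
      nlinarith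
    set z := ω.f (fc (g false) X) with hz
    have hzr : (ω.f (cfc (bump n M) X)).re = z.re := by
      rw [hz, ← fc_real hX]; rfl
    have hsum : (∑ l ∈ Finset.range M,
        ω.f (fc (fun x => g false (x - (l : ℝ) / (n * M))) X)).re ≤ 1 := by
      rw [← map_sum, ← fc_sum (Finset.range M)
        (fun (l : ℕ) x => g false (x - (l : ℝ) / (n * M)))
        fun l _ => continuous_shift (hgc false) _]
      have : (fun x => ∑ l ∈ Finset.range M, g false (x - (l : ℝ) / (n * M))) = fun x =>
          ((∑ l ∈ Finset.range M, bump n M (x - (l : ℝ) / (n * M)) : ℝ) : ℂ) := by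
        funext x; simp [hg]
      rw [this, fc_real hX]
      have cb : Continuous fun x : ℝ => ∑ l ∈ Finset.range M, bump n M (x - (l : ℝ) / (n * M)) :=
        continuous_finsetSum _ fun l _ =>
          (continuous_bump hM0).comp (continuous_id.sub continuous_const)
      have := ω.re_mono (cfc_mono (g := fun _ => (1 : ℝ)) (fun x _ => sum_bump_le hn hM0 x)
        cb.continuousOn continuousOn_const : cfc _ X ≤ _)
      rw [cfc_const (1 : ℝ) X hX, map_one, ω.map_one', one_re] at this
      exact this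
    have hl : ∀ l ∈ Finset.range M,
        z.re - ε / 2 ≤ (ω.f (fc (fun x => g false (x - (l : ℝ) / (n * M))) X)).re := by
      intro l _
      have h := (Complex.abs_re_le_norm _).trans
        (hrot ω hω 1 (Finset.mem_insert_self _ _) false ((l : ℝ) / (n * M)))
      rw [one_mul, one_mul, Complex.sub_re, ← hz] at h
      linarith [(abs_le.1 h).1]
    rw [Complex.re_sum] at hsum
    have h2 := (Finset.sum_le_sum hl).trans hsum
    rw [Finset.sum_const, Finset.card_range, nsmul_eq_mul, ← le_div_iff₀' hM0'] at h2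
    rw [hzr]
    linarith
  refine ⟨p, fun i => ?_, ?_, fun ω hω => ⟨fun i => ?_, fun i j hij => ?_,
    fun c hc i => ⟨?_, ?_⟩, fun k hk i => ?_⟩⟩
  · simp only [hp, fc_real hX]
    exact cfc_nonneg fun x _ => (part_mem n M _ x).1
  · simp only [hp]
    rw [← fc_sum Finset.univ (fun (i : Fin n) x => ((part n M (i : ℕ) x : ℝ) : ℂ))
      fun i _ => cpart _]
    have : (fun x => ∑ i : Fin n, ((part n M (i : ℕ) x : ℝ) : ℂ)) = fun _ => (1 : ℂ) := by
      funext x; rw [← Complex.ofReal_sum, sum_part hn]; simp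
    rw [this, fc_const hX, map_one]
  · -- almost idempotent
    simp only [hp, fc_real hX]
    set f := part n M ((i : ℕ) : ℤ) with hf
    have cf : Continuous f := continuous_part hM0 _
    have e : cfc f X * cfc f X - cfc f X = -cfc (fun x => f x - f x ^ 2) X := by
      rw [cfc_sub _ _ X (by fun_prop) (by fun_prop), cfc_pow _ 2 X (by fun_prop), sq, neg_sub]
    rw [e, ← neg_one_smul ℂ, ω.nrm_smul, norm_neg, norm_one, one_mul]
    refine hsmall ω hω _ (by fun_prop) fun x => ?_
    obtain ⟨h0, h1⟩ : 0 ≤ f x ∧ f x ≤ 1 := part_mem n M _ x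
    exact ⟨by nlinarith, by nlinarith, part_sub_sq_le n M _ x⟩
  · -- almost orthogonal
    simp only [hp, fc_real hX]
    have cf := continuous_part (n := n) hM0 ((i : ℕ) : ℤ)
    have cg := continuous_part (n := n) hM0 ((j : ℕ) : ℤ)
    rw [← cfc_mul _ _ X cf.continuousOn cg.continuousOn]
    refine hsmall ω hω _ (cf.mul cg) fun x => ?_
    obtain ⟨h0, h1⟩ := part_mem n M ((i : ℕ) : ℤ) x
    obtain ⟨g0, g1⟩ := part_mem n M ((j : ℕ) : ℤ) x
    have h2 : part n M (i : ℕ) x + part n M (j : ℕ) x ≤ 1 := by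
      rw [← sum_part hn M x, ← Finset.sum_pair (f := fun l : Fin n => part n M (l : ℕ) x) hij]
      exact Finset.sum_le_sum_of_subset_of_nonneg (Finset.subset_univ _)
        fun l _ _ => (part_mem n M _ x).1
    have h3 := part_sub_sq_le n M ((i : ℕ) : ℤ) x
    exact ⟨by positivity, mul_le_one₀ h1 g0 g1, by nlinarith⟩
  · exact rep_fc_commute ω hX (cpart _) ((hXω ω hω).1 c (Finset.mem_insert_of_mem hc)).1
  · -- all parts have the same trace against `c`
    have hsum : ∑ j : Fin n, ω.f (c * p j) = ω.f c := by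
      rw [← map_sum, ← Finset.mul_sum]
      simp only [hp]
      rw [← fc_sum Finset.univ (fun (i : Fin n) x => ((part n M (i : ℕ) x : ℝ) : ℂ))
        fun i _ => cpart _]
      have : (fun x => ∑ i : Fin n, ((part n M (i : ℕ) x : ℝ) : ℂ)) = fun _ => (1 : ℂ) := by
        funext x; rw [← Complex.ofReal_sum, sum_part hn]; simp
      rw [this, fc_const hX, map_one, mul_one]
    have hd : ∀ j, ‖ω.f (c * p i) - ω.f (c * p j)‖ ≤ ε := by
      intro j
      rw [hpshift i, hpshift j]
      have h1 := hrot ω hω c (Finset.mem_insert_of_mem hc) true (((i : ℕ) : ℝ) / n)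
      have h2 := hrot ω hω c (Finset.mem_insert_of_mem hc) true (((j : ℕ) : ℝ) / n)
      refine (norm_sub_le_norm_sub_add_norm_sub _ (ω.f (c * fc (g true) X)) _).trans ?_
      rw [norm_sub_rev (ω.f (c * fc (g true) X))]
      linarith
    have e : ω.f (c * p i) - ω.f c / n =
        (∑ j : Fin n, (ω.f (c * p i) - ω.f (c * p j))) / n := by
      rw [Finset.sum_sub_distrib, hsum, Finset.sum_const, Finset.card_univ, Fintype.card_fin,
        nsmul_eq_mul, sub_div, mul_div_cancel_left₀ _ (Nat.cast_ne_zero.2 hn.ne')]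
    rw [e, norm_div, Complex.norm_natCast, div_le_iff₀ (Nat.cast_pos.2 hn)]
    refine (norm_sum_le _ _).trans ((Finset.sum_le_sum fun j _ => hd j).trans (le_of_eq ?_))
    simp [mul_comm]
  · -- almost invariance
    set P : ℝ → ℂ :=
      fun x => ∑ m ∈ s true, a true m * wave (2 * Real.pi * m) (x - ((i : ℕ) : ℝ) / n) with hP
    have cP : Continuous P := continuous_trig (s true) (a true) _
    have cg : Continuous fun x => g true (x - ((i : ℕ) : ℝ) / n) :=
      continuous_shift (hgc true) _
    have hαX : IsSelfAdjoint (S.α k X) := hX.map (S.α k)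
    have happ : ∀ Z : B, IsSelfAdjoint Z →
        ω.nrm (fc (fun x => g true (x - ((i : ℕ) : ℝ) / n)) Z - fc P Z) ≤ η := by
      intro Z hZ
      rw [← fc_sub cg cP]
      exact (ω.nrm_le_norm _).trans (norm_fc_le hZ hη.le fun x _ => hsa true _)
    have hmap : S.α k (p i) = fc (fun x => g true (x - ((i : ℕ) : ℝ) / n)) (S.α k X) := by
      rw [hpshift i]; exact fc_map (S.α k) (StarAlgEquiv.isometry (S.α k)).continuous cg hX
    have hd : ω.nrm (fc P (S.α k X) - fc P X) ≤ η' * Λ := by
      simp only [hP, fc_comp_shift hX, fc_comp_shift hαX, ← Finset.sum_sub_distrib]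
      refine (ω.nrm_sum _ _).trans ((Finset.sum_le_sum (g := fun m =>
        η' * (‖a true m‖ * (1 + |2 * Real.pi * m|))) fun m _ => ?_).trans ?_)
      · rw [← smul_sub, ω.nrm_smul, norm_mul, norm_wave, mul_one]
        have h1 := nrm_wave_sub ω hαX hX (2 * Real.pi * m)
        have h2 : ω.nrm (S.α k X - X) ≤ η' :=
          (pow_le_pow_iff_left₀ (ω.nrm_nonneg _) hη'0.le two_ne_zero).1
            (((hXω ω hω).2 k hk).trans (min_le_right _ _))
        calc _ ≤ ‖a true m‖ * (|2 * Real.pi * m| * η') := by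
              gcongr
              exact h1.trans (mul_le_mul_of_nonneg_left h2 (abs_nonneg _))
          _ ≤ ‖a true m‖ * ((1 + |2 * Real.pi * m|) * η') := by gcongr; linarith
          _ = _ := by ring
      · rw [← Finset.mul_sum]
        exact mul_le_mul_of_nonneg_left (hΛb true) hη'0.le
    rw [hmap, hpshift i]
    set u := fc (fun x => g true (x - ((i : ℕ) : ℝ) / n)) (S.α k X)
    set v := fc (fun x => g true (x - ((i : ℕ) : ℝ) / n)) X
    calc ω.nrm (u - v) = ω.nrm ((u - fc P (S.α k X)) + (fc P (S.α k X) - fc P X) -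
          (v - fc P X)) := by congr 1; abel
      _ ≤ η + η' * Λ + η := (ω.nrm_sub _ _).trans (add_le_add ((ω.nrm_add _ _).trans
          (add_le_add (happ _ hαX) hd)) (happ _ hX))
      _ ≤ ε / 12 + ε / 16 + ε / 12 := by
          have e1 : η ≤ ε / 12 := by
            rw [hη', div_le_div_iff₀ (by positivity) (by norm_num)]
            nlinarith
          have e2 : η' * Λ ≤ ε / 16 := by
            rw [hη'', div_mul_eq_mul_div, div_le_div_iff₀ (by positivity) (by norm_num)]
            nlinarith [mul_pos hε (lt_of_lt_of_le one_pos hΛ1)]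
          linarith
      _ ≤ ε := by linarith

end Vale.Agent.P095
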