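import Vale.Agent.P095.Average

/-!
# P095: an element of small 2-norm with the same trace against central elements
-/

open scoped ComplexOrder

namespace Vale.Agent.P095

variable {G B : Type*} [Group G] [CStarAlgebra B] [PartialOrder B] [StarOrderedRing B]
variable {S : Sys G B} {C : Finset B} {F : Finset G} {n : ℕ}

namespace Frame

variable (P : Frame S C F n) (η : ℝ)

/-- The corner of `(√(Y + η) + √η)⁻¹` at `eg g`. -/
noncomputable def corner (g : G) : B := P.eg g * rootInv η P.avg * P.eg g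

/-- The corner spread by the partial isometries. -/
noncomputable def piece (g : G) : B := ∑ i, P.u g i * P.corner η g * star (P.u g i)

/-- The spread element. -/
noncomputable def spread : B := ((F.card : ℝ)⁻¹ * (n : ℝ)⁻¹) • ∑ g ∈ F, P.piece η g

theorem corner_nonneg (g : G) : 0 ≤ P.corner η g := by
  have := star_left_conjugate_nonneg (rootInv_nonneg (η := η) (Y := P.avg)) (P.eg g)
  rwa [P.eg_star] at this

theorem spread_nonneg : 0 ≤ P.spread η :=
  smul_nonneg (by positivity) (Finset.sum_nonneg fun g _ => Finset.sum_nonneg fun _ _ =>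
    star_right_conjugate_nonneg (P.corner_nonneg η g) _)

variable {η}

theorem norm_corner (hη : 0 < η) (g : G) : ‖P.corner η g‖ ≤ (2 * Real.sqrt η)⁻¹ := by
  calc ‖P.corner η g‖ ≤ ‖P.eg g‖ * ‖rootInv η P.avg‖ * ‖P.eg g‖ :=
        (norm_mul_le _ _).trans (mul_le_mul_of_nonneg_right (norm_mul_le _ _) (norm_nonneg _))
    _ ≤ 1 * (2 * Real.sqrt η)⁻¹ * 1 := by
        gcongr <;> first | exact P.eg_norm g | exact norm_rootInv hη
    _ = _ := by ring

theorem norm_spread (hη : 0 < η) : ‖P.spread η‖ ≤ (2 * Real.sqrt η)⁻¹ := by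
  rw [spread, norm_smul, Real.norm_of_nonneg (by positivity : (0 : ℝ) ≤ _)]
  calc _ ≤ (F.card : ℝ)⁻¹ * (n : ℝ)⁻¹ * ∑ _g ∈ F, ∑ _i : Fin n, (2 * Real.sqrt η)⁻¹ := by
        refine mul_le_mul_of_nonneg_left ((norm_sum_le _ _).trans (Finset.sum_le_sum fun g _ =>
          (norm_sum_le _ _).trans (Finset.sum_le_sum fun i _ => ?_))) (by positivity)
        calc _ ≤ ‖P.u g i‖ * ‖P.corner η g‖ * ‖star (P.u g i)‖ :=
              (norm_mul_le _ _).trans
                (mul_le_mul_of_nonneg_right (norm_mul_le _ _) (norm_nonneg _))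
          _ ≤ 1 * (2 * Real.sqrt η)⁻¹ * 1 := by
              rw [norm_star]
              gcongr <;> first | exact P.u_norm g i | exact P.norm_corner hη g
          _ = _ := by ring
    _ = ((F.card : ℝ)⁻¹ * F.card) * ((n : ℝ)⁻¹ * n) * (2 * Real.sqrt η)⁻¹ := by
        simp only [Finset.sum_const, Finset.card_univ, Fintype.card_fin, nsmul_eq_mul]
        ring
    _ ≤ 1 * 1 * (2 * Real.sqrt η)⁻¹ := by
        gcongr <;> exact inv_mul_le_one
    _ = _ := by ring

theorem corner_weight (η : ℝ) {c : B} (hc : c ∈ C) {g : G} (hg : g ∈ F) (i : Fin n) {ω : Tr B}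
    (hω : ω ∈ S.Ω) :
    ω.f (c * (P.u g i * P.corner η g * star (P.u g i))) =
      ω.f (P.eg g * (rootInv η P.avg * c)) := by
  set u := P.u g i
  set e := P.eg g
  have hec := P.eg_comm g hg c hc ω hω
  have q1 : ω.f (c * (u * P.corner η g * star u)) = ω.f (star u * c * u * P.corner η g) := by
    rw [show c * (u * P.corner η g * star u) = (c * u * P.corner η g) * star u by
      simp only [mul_assoc], ω.tracial]
    simp only [mul_assoc]
  have q2 : ω.rep (star u * c * u * P.corner η g) = ω.rep (c * e * P.corner η g) := by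
    rw [map_mul, map_mul, map_mul, map_mul (ω.rep) (c * e), mul_assoc (ω.rep (star u)),
      ((P.u_comm g hg c hc i ω hω).1).eq, ← mul_assoc, ← map_mul (ω.rep) (star u),
      P.u_self g i ω hω, ← hec.eq, ← map_mul]
  have q3 : ω.rep (c * e * P.corner η g) = ω.rep (e * c * rootInv η P.avg * e) := by
    simp only [corner, map_mul, ← mul_assoc]
    rw [mul_assoc (ω.rep c), ← map_mul, P.eg_idem g ω hω, hec.eq]
  have q4 : ω.rep (e * (e * c * rootInv η P.avg)) = ω.rep (c * e * rootInv η P.avg) := by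
    simp only [map_mul, ← mul_assoc]
    rw [← map_mul, P.eg_idem g ω hω, hec.eq]
  rw [q1, ω.apply_congr q2, ω.apply_congr q3, ω.tracial _ e, ω.apply_congr q4, mul_assoc,
    ω.tracial, mul_assoc]

theorem spread_weight (hn : 0 < n) (hη : 0 < η) {c : B} (hc : c ∈ C) {ω : Tr B} (hω : ω ∈ S.Ω) :
    ω.f (c * P.spread η) = ω.f (c * rootShift η P.avg) := by
  have e2 : ω.f (c * rootShift η P.avg) =
      ((F.card : ℝ)⁻¹ : ℝ) * ∑ g ∈ F, ω.f (P.eg g * (rootInv η P.avg * c)) := by
    rw [rootShift_eq hη P.avg_nonneg, ← P.apply_avg_mul, ω.tracial, mul_assoc]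
  have e3 : ∀ g ∈ F, ω.f (c * P.piece η g) =
      (n : ℂ) * ω.f (P.eg g * (rootInv η P.avg * c)) := fun g hg => by
    rw [piece, Finset.mul_sum, map_sum,
      Finset.sum_congr rfl fun i _ => P.corner_weight η hc hg i hω,
      Finset.sum_const, Finset.card_univ, Fintype.card_fin, nsmul_eq_mul]
  rw [spread, mul_smul_comm, ω.apply_rsmul, Finset.mul_sum, map_sum, e2, Finset.sum_congr rfl e3]
  rw [← Finset.mul_sum, Complex.ofReal_mul, Complex.ofReal_inv (n : ℝ), Complex.ofReal_natCast,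
    mul_assoc, inv_mul_cancel_left₀ (Nat.cast_ne_zero.2 hn.ne')]

theorem nrm_piece (hη : 0 < η) (g : G) {ω : Tr B} (hω : ω ∈ S.Ω) :
    ω.nrm (P.piece η g) ^ 2 ≤ n * ((n : ℝ)⁻¹ * (2 * Real.sqrt η)⁻¹ ^ 2) := by
  set X := P.corner η g with hX
  set e := P.eg g
  set u := P.u g
  have hXs : star X = X := (P.corner_nonneg η g).isSelfAdjoint.star_eq
  have key : ∀ i j, ω.f (star (u i * X * star (u i)) * (u j * X * star (u j))) =
      if i = j then ω.f (star X * (e * X * e)) else 0 := by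
    intro i j
    have r : star (u i * X * star (u i)) * (u j * X * star (u j)) =
        u i * (X * (star (u i) * u j) * X * star (u j)) := by
      simp only [star_mul, star_star, hXs, mul_assoc]
    rw [r, ω.tracial, mul_assoc]
    split_ifs with h
    · subst h
      rw [((((Sys.Eqv.refl X).mul (P.u_self g i)).mul (Sys.Eqv.refl X)).mul
        (P.u_self g i)).apply hω, hXs]
      simp only [mul_assoc, e]
    · rw [((((Sys.Eqv.refl X).mul (P.u_orth g i j h)).mul (Sys.Eqv.refl X)).mul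
        (Sys.Eqv.refl (star (u j) * u i))).apply hω]
      simp
  rw [ω.nrm_sq_re, piece]
  simp only [star_sum, Finset.sum_mul, Finset.mul_sum, map_sum]
  simp only [← hX, u, key] at *
  simp only [key, Finset.sum_ite_eq', Finset.mem_univ, if_true, Finset.sum_const,
    Finset.card_univ, Fintype.card_fin, nsmul_eq_mul, Complex.mul_re, Complex.natCast_re,
    Complex.natCast_im, zero_mul, sub_zero]
  refine mul_le_mul_of_nonneg_left ?_ (Nat.cast_nonneg _)
  refine (Complex.re_le_norm _).trans ((ω.norm_apply_star_mul_le _ _).trans ?_)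
  have s2 : ω.nrm X ≤ (2 * Real.sqrt η)⁻¹ * Real.sqrt (n : ℝ)⁻¹ := by
    calc ω.nrm X ≤ ‖e * rootInv η P.avg‖ * ω.nrm e := ω.nrm_mul_left _ _
      _ ≤ _ := by
          refine mul_le_mul ?_ ?_ (ω.nrm_nonneg _) (by positivity)
          · exact (norm_mul_le _ _).trans ((mul_le_mul (P.eg_norm g) (norm_rootInv hη)
              (norm_nonneg _) zero_le_one).trans_eq (one_mul _))
          · rw [← Real.sqrt_sq (ω.nrm_nonneg e), P.nrm_eg g hω]
  have s3 : ω.nrm (e * X * e) ≤ ω.nrm X := by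
    calc _ ≤ ω.nrm (e * X) * ‖e‖ := ω.nrm_mul_right _ _
      _ ≤ ‖e‖ * ω.nrm X * ‖e‖ :=
          mul_le_mul_of_nonneg_right (ω.nrm_mul_left _ _) (norm_nonneg _)
      _ ≤ 1 * ω.nrm X * 1 := mul_le_mul (mul_le_mul_of_nonneg_right (P.eg_norm g)
          (ω.nrm_nonneg _)) (P.eg_norm g) (norm_nonneg _)
          (mul_nonneg zero_le_one (ω.nrm_nonneg _))
      _ = _ := by ring
  calc ω.nrm X * ω.nrm (e * X * e) ≤ ((2 * Real.sqrt η)⁻¹ * Real.sqrt (n : ℝ)⁻¹) *
        ((2 * Real.sqrt η)⁻¹ * Real.sqrt (n : ℝ)⁻¹) :=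
        mul_le_mul s2 (s3.trans s2) (ω.nrm_nonneg _) (by positivity)
    _ = _ := by
        rw [mul_mul_mul_comm, Real.mul_self_sqrt (by positivity)]; ring

theorem nrm_spread (hn : 0 < n) (hη : 0 < η) {ω : Tr B} (hω : ω ∈ S.Ω) :
    ω.nrm (P.spread η) ≤ (n : ℝ)⁻¹ / (2 * Real.sqrt η) := by
  have hp : ∀ g, ω.nrm (P.piece η g) ≤ (2 * Real.sqrt η)⁻¹ := fun g => by
    have h := P.nrm_piece hη g hω
    rw [← mul_assoc, mul_inv_cancel₀ (Nat.cast_ne_zero.2 hn.ne'), one_mul] at h
    exact (pow_le_pow_iff_left₀ (ω.nrm_nonneg _) (by positivity) two_ne_zero).1 h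
  rw [spread, ω.nrm_rsmul (by positivity)]
  calc _ ≤ (F.card : ℝ)⁻¹ * (n : ℝ)⁻¹ * ∑ _g ∈ F, (2 * Real.sqrt η)⁻¹ :=
        mul_le_mul_of_nonneg_left ((ω.nrm_sum _ _).trans (Finset.sum_le_sum fun g _ => hp g))
          (by positivity)
    _ = ((F.card : ℝ)⁻¹ * F.card) * ((n : ℝ)⁻¹ * (2 * Real.sqrt η)⁻¹) := by
        rw [Finset.sum_const, nsmul_eq_mul]; ring
    _ ≤ 1 * ((n : ℝ)⁻¹ * (2 * Real.sqrt η)⁻¹) := by gcongr; exact inv_mul_le_one
    _ = _ := by rw [one_mul, div_eq_mul_inv]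

theorem spread_comm {η : ℝ} (hη : 0 < η) {c : B} (hc : c ∈ C) {ω : Tr B} (hω : ω ∈ S.Ω) :
    Commute (ω.rep c) (ω.rep (P.spread η)) := by
  rw [spread, ← Complex.coe_smul, map_smul, map_sum]
  refine (Commute.sum_right _ _ _ fun g hg => ?_).smul_right _
  rw [piece, map_sum]
  refine Commute.sum_right _ _ _ fun i _ => ?_
  have he := P.eg_comm g hg c hc ω hω
  have hG : Commute (ω.rep c) (ω.rep (rootInv η P.avg)) :=
    commute_rep_cfc ω P.avg_nonneg.isSelfAdjoint c _ (continuous_rootInv hη) (P.avg_comm hc hω)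
  obtain ⟨h1, h2⟩ := P.u_comm g hg c hc i ω hω
  simp only [corner, map_mul]
  exact (h1.mul_right ((he.mul_right hG).mul_right he)).mul_right h2

end Frame

end Vale.Agent.P095
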