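import Vale.Agent.P095.Basic

/-!
# P095: the abstract setting
-/

open scoped ComplexOrder

namespace Vale.Agent.P095

variable {G B : Type*} [Group G] [CStarAlgebra B] [PartialOrder B] [StarOrderedRing B]

/-- A group acting on `B`, an invariant family of traces and approximately central matrix units. -/
structure Sys (G B : Type*) [Group G] [CStarAlgebra B] [PartialOrder B] [StarOrderedRing B] where
  Ω : Set (Tr B)
  α : G → B ≃⋆ₐ[ℂ] B
  α_mul : ∀ g h x, α (g * h) x = α g (α h x)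
  invariant : ∀ ω ∈ Ω, ∀ g, ∃ ω' ∈ Ω, ∀ x, ω'.f x = ω.f (α g x)
  units : ∀ (C : Finset B) (n : ℕ), ∃ E : Fin n → Fin n → B, (∀ i j, ‖E i j‖ ≤ 1) ∧
    ∀ ω ∈ Ω, (∀ i j k l, ω.rep (E i j * E k l) = if j = k then ω.rep (E i l) else 0) ∧
      (∀ i j, ω.rep (star (E i j)) = ω.rep (E j i)) ∧ (0 < n → ω.rep (∑ i, E i i) = 1) ∧
      ∀ c ∈ C, ∀ i j, Commute (ω.rep c) (ω.rep (E i j))

/-- The Følner condition. -/
def Foelner (G : Type*) [Group G] [DecidableEq G] : Prop :=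
  ∀ (K : Finset G) (ε : ℝ), 0 < ε → ∃ F : Finset G, F.Nonempty ∧
    ∀ k ∈ K, (((F.image (k * ·)) \ F).card + (F \ (F.image (k * ·))).card : ℝ) ≤ ε * F.card

namespace Sys

variable (S : Sys G B)

/-- Equality in every trace representation. -/
def Eqv (x y : B) : Prop := ∀ ω ∈ S.Ω, ω.rep x = ω.rep y

variable {S}

theorem Eqv.mul {x y x' y' : B} (h : S.Eqv x y) (h' : S.Eqv x' y') :
    S.Eqv (x * x') (y * y') := fun ω hω => by rw [map_mul, map_mul, h ω hω, h' ω hω]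

theorem Eqv.refl (x : B) : S.Eqv x x := fun _ _ => rfl

theorem Eqv.symm {x y : B} (h : S.Eqv x y) : S.Eqv y x := fun ω hω => (h ω hω).symm

theorem Eqv.trans {x y z : B} (h : S.Eqv x y) (h' : S.Eqv y z) : S.Eqv x z :=
  fun ω hω => (h ω hω).trans (h' ω hω)

theorem Eqv.of_eq {x y : B} (h : x = y) : S.Eqv x y := h ▸ Eqv.refl x

theorem Eqv.apply {x y : B} (h : S.Eqv x y) {ω : Tr B} (hω : ω ∈ S.Ω) : ω.f x = ω.f y :=
  ω.apply_congr (h ω hω)

theorem Eqv.map {x y : B} (h : S.Eqv x y) (g : G) : S.Eqv (S.α g x) (S.α g y) := by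
  intro ω hω
  obtain ⟨ω', hω', he⟩ := S.invariant ω hω g
  rw [ω.rep_eq_iff]
  have h0 := (ω'.rep_eq_iff x y).1 (h ω' hω')
  rw [← sq_eq_zero_iff, ω.nrm_sq_re, ← map_sub, ← map_star, ← map_mul, ← he, ← ω'.nrm_sq_re, h0]
  simp

theorem norm_α (g : G) (x : B) : ‖S.α g x‖ = ‖x‖ := StarAlgEquiv.norm_map _ _

theorem α_nonneg (g : G) {x : B} (hx : 0 ≤ x) : 0 ≤ S.α g x := by
  obtain ⟨s, rfl⟩ := CStarAlgebra.nonneg_iff_eq_star_mul_self.1 hx
  rw [map_mul, map_star]; exact star_mul_self_nonneg _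

theorem α_rsmul (k : G) (r : ℝ) (x : B) : S.α k (r • x) = r • S.α k x := by
  rw [← Complex.coe_smul, map_smul, Complex.coe_smul]

theorem nrm_α {ω ω' : Tr B} {g : G} (he : ∀ x, ω'.f x = ω.f (S.α g x)) (x : B) :
    ω.nrm (S.α g x) = ω'.nrm x := by
  refine (sq_eq_sq₀ (ω.nrm_nonneg _) (ω'.nrm_nonneg _)).1 ?_
  rw [ω.nrm_sq_re, ω'.nrm_sq_re, ← map_star, ← map_mul, he]

end Sys

namespace Tr

variable (ω : Tr B)

theorem apply_rsmul (r : ℝ) (x : B) : ω.f (r • x) = r * ω.f x := by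
  rw [← Complex.coe_smul, map_smul, smul_eq_mul]

theorem nrm_rsmul {r : ℝ} (hr : 0 ≤ r) (x : B) : ω.nrm (r • x) = r * ω.nrm x := by
  rw [← Complex.coe_smul, ω.nrm_smul, Complex.norm_real, Real.norm_of_nonneg hr]

end Tr

end Vale.Agent.P095
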